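import Crest.Agent.N334.End.Spec
import Crest.Agent.N334.T.Defs
import Crest.Agent.N334.T.Cav
import Crest.Agent.N334.T.Law
import Crest.Agent.N334.T.Marg
import Crest.Agent.N334.T.TL
import Crest.Agent.N334.T.LC_Mg

-- ▼ part N334/T/SliceS
section

/-!
# Row 334 (helper52): the scalar slice lemma of note 291
-/

set_option autoImplicit false

open MeasureTheory Complex Set
open scoped ENNReal

namespace Crest.Agent.N334.T.Sl

open Crest.Agent.N334.End

lemma lint_pk_le {η : ℝ} (hη : 0 < η) (l α β : ℝ) (h : α ≤ β) :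
    ∫⁻ a in Icc α β, ENNReal.ofReal (pk η (l - a)) ≤ ENNReal.ofReal Real.pi := by
  rw [← ofReal_integral_eq_lintegral_ofReal (cont_pk' hη l).integrableOn_Icc
    (Filter.Eventually.of_forall fun t => pk_nonneg hη.le _), integral_Icc_eq_integral_Ioc,
    ← intervalIntegral.integral_of_le h]
  exact ENNReal.ofReal_le_ofReal (int_pk_le hη _ _ _)

lemma normSq_sub (v : ℝ) (m : ℂ) : ‖(v : ℂ) - m‖ ^ 2 = (m.re - v) ^ 2 + m.im ^ 2 := by
  rw [← normSq_eq_norm_sq, normSq_apply]; simp; ring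

lemma ne_pole {m : ℂ} (hm : 0 < m.im) (v : ℝ) : (v : ℂ) - m ≠ 0 := fun h => by
  have := congrArg im h; simp at this; linarith

/-- upper bound near the pole -/
lemma upper {m : ℂ} (hm : 0 < m.im) (α β : ℂ) {w : ℝ} (hw : 0 ≤ w) :
    ∫⁻ v in Icc (m.re - w) (m.re + w), ENNReal.ofReal (‖α + β / (v - m)‖ ^ 2) ≤
      ENNReal.ofReal (4 * w * ‖α‖ ^ 2 + 8 * ‖β‖ ^ 2 / m.im) := by
  refine (lintegral_mono fun v => (ENNReal.ofReal_le_ofReal (q := 2 * ‖α‖ ^ 2 +
    2 * ‖β‖ ^ 2 / m.im * pk m.im (m.re - v)) ?_).trans ENNReal.ofReal_add_le).trans ?_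
  · have : ‖β / (v - m)‖ ^ 2 = ‖β‖ ^ 2 / m.im * pk m.im (m.re - v) := by
      rw [norm_div, div_pow, normSq_sub, pk]; field_simp
    rw [mul_div_assoc, mul_assoc, ← this]
    nlinarith [pow_le_pow_left₀ (norm_nonneg _) (norm_add_le α (β / (v - m))) 2,
      sq_nonneg (‖α‖ - ‖β / (v - m)‖)]
  · rw [lintegral_add_left measurable_const, setLIntegral_const, Real.volume_Icc,
      ← ENNReal.ofReal_mul (by positivity), ENNReal.ofReal_add (by positivity) (by positivity)]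
    refine add_le_add (le_of_eq (by congr 1; ring)) ?_
    simp only [ENNReal.ofReal_mul (by positivity : 0 ≤ 2 * ‖β‖ ^ 2 / m.im)]
    rw [lintegral_const_mul' _ _ ENNReal.ofReal_ne_top]
    refine (mul_le_mul_right (lint_pk_le hm _ _ _ (by linarith)) _).trans ?_
    rw [← ENNReal.ofReal_mul (by positivity)]
    refine ENNReal.ofReal_le_ofReal ?_
    have := mul_le_mul_of_nonneg_left Real.pi_le_four (by positivity : 0 ≤ 2 * ‖β‖ ^ 2 / m.im)
    linarith [mul_div_assoc 2 (‖β‖ ^ 2) m.im, mul_div_assoc 8 (‖β‖ ^ 2) m.im]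

/-- lower bound on a segment at distance `~ w` from the pole -/
lemma lower {m : ℂ} (hm : 0 < m.im) (α β : ℂ) {w p : ℝ} (hw : 0 < w)
    (h : ∀ v ∈ Icc p (p + w), ‖(v : ℂ) - m‖ ^ 2 ≤ 5 * w ^ 2) :
    ENNReal.ofReal ((w * ‖α‖ ^ 2 + ‖β‖ ^ 2 / w) / 2000) ≤
      ∫⁻ v in Icc p (p + w), ENNReal.ofReal (‖α + β / (v - m)‖ ^ 2) := by
  set F : ℝ → ℝ≥0∞ := fun v => ENNReal.ofReal (‖α + β / (v - m)‖ ^ 2)
  have hF : Measurable F := by fun_prop
  have h1 : ∫⁻ v in Icc p (p + w / 2), F (v + w / 2) ≤ ∫⁻ v in Icc p (p + w), F v := by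
    rw [← lintegral_indicator measurableSet_Icc, ← lintegral_indicator measurableSet_Icc,
      ← lintegral_add_right_eq_self ((Icc p (p + w)).indicator _) (w / 2)]
    refine lintegral_mono fun v => indicator_apply_le' (fun hv => ?_) fun _ => zero_le
    rw [indicator_of_mem (by constructor <;> linarith [hv.1, hv.2])]
  have h2 := add_le_add (lintegral_mono_set (μ := volume) (f := F)
    (Icc_subset_Icc (le_refl p) (by linarith : p + w / 2 ≤ p + w))) h1
  rw [← lintegral_add_left hF, ← two_mul] at h2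
  refine (ENNReal.mul_le_mul_iff_right two_ne_zero ENNReal.ofNat_ne_top).1 <| le_trans ?_
    ((setLIntegral_mono' measurableSet_Icc (f := fun _ => ENNReal.ofReal
    ((‖α‖ ^ 2 + ‖β‖ ^ 2 / w ^ 2) / 500)) fun v hv => ?_).trans h2)
  · rw [setLIntegral_const, Real.volume_Icc, ← ENNReal.ofReal_mul (by positivity),
      ← ENNReal.ofReal_ofNat 2, ← ENNReal.ofReal_mul (by positivity)]
    exact le_of_eq (by congr 1; field_simp; ring)
  · rw [← ENNReal.ofReal_add (by positivity) (by positivity)]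
    refine ENNReal.ofReal_le_ofReal ?_
    have h3 := h v ⟨hv.1, by linarith [hv.2]⟩
    have h4 := h (v + w / 2) ⟨by linarith [hv.1], by linarith [hv.2]⟩
    have n1 := ne_pole hm v
    have n2 := ne_pole hm (v + w / 2)
    set x := α + β / (v - m) with hx
    set y := α + β / ((v + w / 2 : ℝ) - m) with hy
    have e1 : α * (w / 2 : ℝ) = y * ((v + w / 2 : ℝ) - m) - x * (v - m) := by
      rw [hx, hy, add_mul, add_mul, div_mul_cancel₀ _ n1, div_mul_cancel₀ _ n2]; push_cast; ring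
    have e2 : β = (x - α) * (v - m) := by rw [hx, add_sub_cancel_left, div_mul_cancel₀ _ n1]
    have k1 := pow_le_pow_left₀ (norm_nonneg _) ((congrArg norm e1).trans_le (norm_sub_le _ _)) 2
    rw [norm_mul, norm_mul, norm_mul, norm_real, Real.norm_of_nonneg (by positivity)] at k1
    have k2 : ‖α‖ ^ 2 ≤ 40 * (‖x‖ ^ 2 + ‖y‖ ^ 2) := by
      refine le_of_mul_le_mul_right ?_ (by positivity : 0 < w ^ 2)
      nlinarith [sq_nonneg (‖y‖ * ‖((v + w / 2 : ℝ) : ℂ) - m‖ - ‖x‖ * ‖(v : ℂ) - m‖),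
        mul_le_mul_of_nonneg_left h3 (sq_nonneg ‖x‖), mul_le_mul_of_nonneg_left h4 (sq_nonneg ‖y‖)]
    have k3 : ‖β‖ ^ 2 / w ^ 2 ≤ 5 * ‖x - α‖ ^ 2 := by
      rw [div_le_iff₀ (by positivity), e2, norm_mul, mul_pow]
      nlinarith [mul_le_mul_of_nonneg_left h3 (sq_nonneg ‖x - α‖)]
    nlinarith [pow_le_pow_left₀ (norm_nonneg _) (norm_sub_le x α) 2, sq_nonneg (‖x‖ - ‖α‖)]

/-- the absorbed part `Re e - |e|²` is controlled by positivity alone -/
lemma absorbed_le {m e k : ℂ} (hm : 0 < m.im) (he : ‖e‖ ≤ 1 / 2)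
    (h : ∀ v : ℝ, ‖e + k / (v - m)‖ ^ 2 ≤ (e + k / (v - m)).re) (v : ℝ) :
    (e + k / (v - m)).re - ‖e + k / (v - m)‖ ^ 2 ≤ 3 * ‖e‖ + 4 * ‖k‖ * m.im / ‖(v : ℂ) - m‖ ^ 2 := by
  set l := k * (1 - 2 * (starRingEnd ℂ) e) with hl
  set n := e.re - ‖e‖ ^ 2 with hn
  set B := -l.im * m.im - ‖k‖ ^ 2 with hB
  have h0 : ∀ v : ℝ, 0 < (v - m.re) ^ 2 + m.im ^ 2 := fun v => by positivity
  have h1 : ∀ v : ℝ, (e + k / (v - m)).re - ‖e + k / (v - m)‖ ^ 2 =
      n + (l.re * (v - m.re) + B) / ((v - m.re) ^ 2 + m.im ^ 2) := fun v => by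
    have := h0 v
    simp only [hn, hB, hl, ← normSq_eq_norm_sq, normSq_apply, add_re, add_im, div_re, div_im, sub_re,
      sub_im, ofReal_re, ofReal_im, mul_re, mul_im, one_re, one_im, conj_re, conj_im, re_ofNat,
      im_ofNat, zero_sub, ← sq]
    field_simp; ring
  have h2 : ∀ t : ℝ, 0 ≤ n * (t * t) + l.re * t + (n * m.im ^ 2 + B) := fun t => by
    have := sub_nonneg.2 (h (t + m.re))
    rw [h1, add_sub_cancel_right, add_div' _ _ _ (by positivity), le_div_iff₀ (by positivity)] at this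
    linarith
  have h3 : ∀ t : ℝ, l.re * t ≤ n * (t * t) + (n * m.im ^ 2 + B) := fun t => by linarith [h2 (-t)]
  have h4 : n ≤ ‖e‖ := by linarith [re_le_norm e, sq_nonneg ‖e‖]
  have h5 : B ≤ 2 * ‖k‖ * m.im := by
    have : ‖l‖ ≤ ‖k‖ * 2 := by
      rw [hl, norm_mul]
      refine mul_le_mul_of_nonneg_left ((norm_sub_le _ _).trans ?_) (norm_nonneg _)
      simp only [norm_one, norm_mul, norm_ofNat, norm_conj]; linarith
    nlinarith [neg_abs_le l.im, abs_im_le_norm l, sq_nonneg ‖k‖]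
  rw [h1, normSq_sub, sub_sq_comm m.re, ← sub_nonneg, show ∀ a b c d D : ℝ, a + b / D - (c + d / D) =
    a - c + (b - d) / D from fun _ _ _ _ _ => by ring, add_div' _ _ _ (h0 v).ne']
  refine div_nonneg ?_ (h0 v).le
  nlinarith [h3 (v - m.re), mul_le_mul_of_nonneg_right h4 (h0 v).le,
    mul_nonneg (norm_nonneg e) (h0 v).le]

/-- **Slice lemma.** `e v = e₀ + k/(v-m)` is the distance to the good phase, `α + β/(v-m)` the wave. -/
theorem slice {μ : Measure ℝ} {c η a b e₁ e₀ γ : ℝ} {m e k : ℂ} (α β : ℂ) (hη : 0 < η) (ha : 0 < a)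
    (hb : 0 ≤ b) (hγ : 0 < γ) (h1 : 0 < e₁) (h10 : 72 * e₁ ≤ e₀) (h0 : e₀ ≤ 1) (hm : 0 < m.im)
    (hk : ‖k‖ ≤ m.im) (hpos : ∀ v : ℝ, ‖e + k / (v - m)‖ ^ 2 ≤ (e + k / (v - m)).re)
    (hlo : ENNReal.ofReal a • volume.restrict (Icc (c - η) (c + η)) ≤ μ)
    (hup : μ ≤ ENNReal.ofReal b • volume.restrict (Icc (c - η) (c + η)))
    (hS : μ {v | e₁ < ‖e + k / (v - m)‖} < ENNReal.ofReal (a * (η / 2))) :
    ∫⁻ v in {v : ℝ | e₀ < ‖e + k / (v - m)‖}, ENNReal.ofReal (‖α + β / (v - m)‖ ^ 2) ∂μ ≤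
      ENNReal.ofReal (10 ^ 6 * (b / a) * (e₀ + (γ + e₁) / e₀)) *
        ∫⁻ v in {v : ℝ | ‖e + k / (v - m)‖ ≤ e₀}, ENNReal.ofReal (‖α + β / (v - m)‖ ^ 2 /
          (γ + ((e + k / (v - m)).re - ‖e + k / (v - m)‖ ^ 2))) ∂μ := by
  have np := ne_pole hm
  have he0 : 0 < e₀ := by linarith
  have hgood : ∀ p, c - η ≤ p → p + η / 2 ≤ c + η →
      ∃ v ∈ Icc p (p + η / 2), ‖e + k / (v - m)‖ ≤ e₁ := fun p p1 p2 => by
    by_contra hc
    push Not at hc
    refine hS.not_ge (le_trans ?_ ((hlo _).trans (measure_mono (s := Icc p (p + η / 2)) hc)))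
    rw [Measure.smul_apply, Measure.restrict_apply measurableSet_Icc,
      inter_eq_left.2 (Icc_subset_Icc p1 p2), Real.volume_Icc, smul_eq_mul,
      ← ENNReal.ofReal_mul ha.le, add_sub_cancel_left]
  obtain ⟨v₁, i1, g1⟩ := hgood (c - η) le_rfl (by linarith)
  obtain ⟨v₂, i2, g2⟩ := hgood (c + η / 2) (by linarith) (by linarith)
  have hmB : MeasurableSet {v : ℝ | e₀ < ‖e + k / (v - m)‖} := measurableSet_lt (by fun_prop) (by fun_prop)
  refine (lintegral_mono' (Measure.restrict_mono subset_rfl hup) le_rfl).trans ?_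
  rw [Measure.restrict_smul, Measure.restrict_restrict hmB, lintegral_smul_measure]
  rcases ({v : ℝ | e₀ < ‖e + k / (v - m)‖} ∩ Icc (c - η) (c + η)).eq_empty_or_nonempty with hE | hE
  · simp [hE]
  obtain ⟨v₀, b0, i0⟩ := hE
  have hd : ∀ v v' : ℝ, ‖e + k / (v - m) - (e + k / (v' - m))‖ * (‖(v : ℂ) - m‖ * ‖(v' : ℂ) - m‖) =
      ‖k‖ * |v' - v| := fun v v' => by
    rw [← norm_mul, ← norm_mul, ← Real.norm_eq_abs, ← norm_real, ← norm_mul]
    congr 1; have := np v; have := np v'; push_cast; field_simp; ring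
  have ht : ∀ v v' : ℝ, ‖(v : ℂ) - m‖ ≤ ‖(v' : ℂ) - m‖ + |v - v'| := fun v v' => by
    rw [← Real.norm_eq_abs, ← norm_real, add_comm]
    exact (norm_sub_le_norm_sub_add_norm_sub _ (v' : ℂ) _).trans_eq (by push_cast; rfl)
  have q0 := norm_pos_iff.2 (np v₀)
  have q1 := norm_pos_iff.2 (np v₁)
  have q2 := norm_pos_iff.2 (np v₂)
  have k1 : ‖k‖ * η ≤ 2 * e₁ * (‖(v₁ : ℂ) - m‖ * ‖(v₂ : ℂ) - m‖) := by
    have := mul_le_mul_of_nonneg_right ((norm_sub_le _ _).trans (add_le_add g1 g2)) (mul_pos q1 q2).le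
    rw [hd, abs_of_nonneg (by linarith [i1.2, i2.1])] at this
    nlinarith [mul_le_mul_of_nonneg_left (show η ≤ v₂ - v₁ by linarith [i1.2, i2.1]) (norm_nonneg k)]
  have a1 : |v₁ - v₀| ≤ 2 * η := abs_le.2 ⟨by linarith [i1.1, i0.2], by linarith [i1.2, i0.1]⟩
  have a2 : |v₂ - v₀| ≤ 2 * η := abs_le.2 ⟨by linarith [i2.1, i0.2], by linarith [i2.2, i0.1]⟩
  have k2 : ‖(v₀ : ℂ) - m‖ ≤ η := by
    have := mul_le_mul_of_nonneg_right ((sub_le_sub (le_of_lt b0) g1).trans (norm_sub_norm_le _ _))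
      (mul_pos q0 q1).le
    rw [hd] at this
    have h2 : (e₀ - e₁) * ‖(v₀ : ℂ) - m‖ ≤ 4 * e₁ * ‖(v₂ : ℂ) - m‖ := le_of_mul_le_mul_right
      (by nlinarith [mul_le_mul_of_nonneg_left a1 (norm_nonneg k)]) q1
    have h3 := mul_le_mul_of_nonneg_left ((ht v₂ v₀).trans (add_le_add_right a2 _)) h1.le
    refine le_of_mul_le_mul_left ?_ h1
    nlinarith [mul_le_mul_of_nonneg_right h10 q0.le, mul_pos h1 hη]
  have t1 : ‖(v₁ : ℂ) - m‖ ≤ 3 * η := by linarith [ht v₁ v₀]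
  have t2 : ‖(v₂ : ℂ) - m‖ ≤ 3 * η := by linarith [ht v₂ v₀]
  have k3 : ‖k‖ ≤ 6 * e₁ * ‖(v₁ : ℂ) - m‖ := le_of_mul_le_mul_right
    (by nlinarith [mul_le_mul_of_nonneg_left t2 (mul_pos h1 q1).le]) hη
  have k4 : ‖e‖ ≤ 7 * e₁ := by
    have := norm_sub_le (e + k / (v₁ - m)) (k / (v₁ - m))
    rw [add_sub_cancel_right, norm_div] at this
    linarith [(div_le_iff₀ q1).2 k3]
  set w := 2 * ‖k‖ / e₀ with hw
  have hwe : w * e₀ = 2 * ‖k‖ := div_mul_cancel₀ _ he0.ne'
  have k5 : ∀ v : ℝ, w ≤ ‖(v : ℂ) - m‖ → ‖e + k / (v - m)‖ ≤ e₀ := fun v hv => by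
    refine (norm_add_le _ _).trans ?_
    have : ‖k‖ / ‖(v : ℂ) - m‖ ≤ e₀ / 2 := by
      rw [div_le_iff₀ (norm_pos_iff.2 (np v))]; nlinarith
    rw [norm_div]; linarith
  have k6 : ‖(v₀ : ℂ) - m‖ < w := not_le.1 fun h => (k5 v₀ h).not_gt b0
  have hw0 := q0.trans k6
  have hre : ∀ v : ℝ, |v - m.re| ≤ ‖(v : ℂ) - m‖ := fun v => by simpa using abs_re_le_norm (v - m)
  have hy : m.im ≤ w := by
    have := abs_im_le_norm (v₀ - m)
    simp only [sub_im, ofReal_im, zero_sub, abs_neg] at this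
    linarith [le_abs_self m.im]
  have hw2 : 2 * w ≤ η := le_of_mul_le_mul_right (by nlinarith [mul_le_mul_of_nonneg_left t1 h1.le]) he0
  obtain ⟨p, p1, p2, p3⟩ : ∃ p, c - η ≤ p ∧ p + w ≤ c + η ∧
      ∀ v ∈ Icc p (p + w), w ≤ |v - m.re| ∧ |v - m.re| ≤ 2 * w := by
    have := abs_le.1 ((hre v₀).trans k6.le)
    rcases le_total c m.re with h | h
    · exact ⟨m.re - 2 * w, by linarith, by linarith [i0.2], fun v hv => by
        rw [abs_sub_comm, abs_of_nonneg (by linarith [hv.2])]; constructor <;> linarith [hv.1, hv.2]⟩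
    · exact ⟨m.re + w, by linarith [i0.1], by linarith, fun v hv => by
        rw [abs_of_nonneg (by linarith [hv.1])]; constructor <;> linarith [hv.1, hv.2]⟩
  set D := γ + 21 * e₁ + 2 * e₀ * m.im / w with hD
  have hD0 : 0 < D := by positivity
  have L1 := (lintegral_mono_set (μ := volume) fun v hv => (by
    have := abs_le.1 ((hre v).trans (not_le.1 fun h => (k5 v h).not_gt hv.1).le)
    constructor <;> linarith : v ∈ Icc (m.re - w) (m.re + w)) : ∫⁻ v in {v : ℝ | e₀ <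
      ‖e + k / (v - m)‖} ∩ Icc (c - η) (c + η), ENNReal.ofReal (‖α + β / (v - m)‖ ^ 2) ≤ _).trans
    (upper hm α β hw0.le)
  have L2 := lower hm α β hw0 (p := p) fun v hv => by
    rw [normSq_sub, sub_sq_comm, ← sq_abs]
    nlinarith [(p3 v hv).2, abs_nonneg (v - m.re)]
  have L3 : ENNReal.ofReal a * (ENNReal.ofReal D⁻¹ * ∫⁻ v in Icc p (p + w),
      ENNReal.ofReal (‖α + β / (v - m)‖ ^ 2)) ≤ ∫⁻ v in {v : ℝ | ‖e + k / (v - m)‖ ≤ e₀},
        ENNReal.ofReal (‖α + β / (v - m)‖ ^ 2 /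
          (γ + ((e + k / (v - m)).re - ‖e + k / (v - m)‖ ^ 2))) ∂μ := by
    refine le_trans ?_ (lintegral_mono' (Measure.restrict_mono (s := Icc p (p + w))
      (fun v hv => k5 v ((p3 v hv).1.trans (hre v))) hlo) le_rfl)
    rw [Measure.restrict_smul, Measure.restrict_restrict measurableSet_Icc,
      inter_eq_left.2 (Icc_subset_Icc p1 p2), lintegral_smul_measure, smul_eq_mul,
      ← lintegral_const_mul' _ _ ENNReal.ofReal_ne_top]
    refine mul_le_mul_right (setLIntegral_mono' measurableSet_Icc fun v hv => ?_) _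
    rw [← ENNReal.ofReal_mul (by positivity), ← div_eq_inv_mul]
    refine ENNReal.ofReal_le_ofReal (div_le_div_of_nonneg_left (by positivity)
      (by linarith [hpos v]) ?_)
    have h2 := absorbed_le hm (by linarith) hpos v
    have h3 : 4 * ‖k‖ * m.im / ‖(v : ℂ) - m‖ ^ 2 ≤ 2 * e₀ * m.im / w :=
      (div_le_div_of_nonneg_left (by positivity) (by positivity) (pow_le_pow_left₀ hw0.le
        ((p3 v hv).1.trans (hre v)) 2)).trans_eq (by
          rw [show 4 * ‖k‖ = 2 * (w * e₀) by linarith]; field_simp)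
    linarith
  refine (mul_le_mul_right L1 _).trans (le_trans ?_ (mul_le_mul_right ((mul_le_mul_right
    (mul_le_mul_right L2 _) _).trans L3) _))
  rw [← ENNReal.ofReal_mul hb, ← ENNReal.ofReal_mul (by positivity), ← ENNReal.ofReal_mul ha.le,
    ← ENNReal.ofReal_mul (by positivity)]
  refine ENNReal.ofReal_le_ofReal ?_
  have h2 : w / m.im * D ≤ 42 * (e₀ + (γ + e₁) / e₀) := by
    have h3 : w / m.im ≤ 2 / e₀ := by rw [div_le_div_iff₀ hm he0]; linarith
    have h4 : w / m.im * (2 * e₀ * m.im / w) = 2 * e₀ := by field_simp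
    have h5 := mul_le_mul_of_nonneg_right h3 (by positivity : 0 ≤ γ + 21 * e₁)
    have h6 : 2 / e₀ * (γ + 21 * e₁) ≤ 42 * ((γ + e₁) / e₀) := by
      rw [div_mul_eq_mul_div, ← mul_div_assoc]
      exact div_le_div_of_nonneg_right (by linarith) he0.le
    rw [hD, mul_add, h4]; linarith
  have h3 : 4 * w * ‖α‖ ^ 2 + 8 * ‖β‖ ^ 2 / m.im ≤ 8 * (w / m.im * (w * ‖α‖ ^ 2 + ‖β‖ ^ 2 / w)) := by
    have h4 : w / m.im * (‖β‖ ^ 2 / w) = ‖β‖ ^ 2 / m.im := by field_simp
    have h5 := mul_le_mul_of_nonneg_right ((one_le_div hm).2 hy) (by positivity : 0 ≤ w * ‖α‖ ^ 2)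
    rw [mul_add, h4, mul_div_assoc]
    nlinarith [mul_nonneg hw0.le (sq_nonneg ‖α‖)]
  have hX : 0 ≤ w * ‖α‖ ^ 2 + ‖β‖ ^ 2 / w := by positivity
  have hZ : 0 ≤ e₀ + (γ + e₁) / e₀ := by positivity
  generalize w * ‖α‖ ^ 2 + ‖β‖ ^ 2 / w = X at h3 hX ⊢
  generalize e₀ + (γ + e₁) / e₀ = Z at h2 hZ ⊢
  rw [show 10 ^ 6 * (b / a) * Z * (a * (D⁻¹ * (X / 2000))) = b * (500 * (Z / D * X)) by field_simp; ring]
  refine mul_le_mul_of_nonneg_left (h3.trans ?_) hb
  rw [← le_div_iff₀ hD0, mul_div_assoc] at h2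
  nlinarith [mul_le_mul_of_nonneg_right h2 hX, mul_nonneg (div_nonneg hZ hD0.le) hX]

end Crest.Agent.N334.T.Sl
end

-- ▼ part N334/T/Slice
section

/-!
# Row 334, engine T: the scalar slice lemma (leaf T-Slice)
-/

set_option autoImplicit false
set_option linter.unusedSectionVars false

open MeasureTheory Complex Finset Function
open scoped ENNReal

namespace Crest.Agent.N334.T

namespace Sli

open Set Sl

/-- lower bound on a segment at distance `~ w` from the pole -/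
lemma lower {m : ℂ} (hm : 0 < m.im) (α β : ℂ) {w p : ℝ} (hw : 0 < w)
    (h : ∀ v ∈ Icc p (p + 2 * w), ‖(v : ℂ) - m‖ ^ 2 ≤ 10 * w ^ 2) :
    ENNReal.ofReal ((4 * w * ‖α‖ ^ 2 + 8 * ‖β‖ ^ 2 / w) / 3360) ≤
      ∫⁻ v in Icc p (p + 2 * w), ENNReal.ofReal (‖α + β / (v - m)‖ ^ 2) := by
  set F : ℝ → ℝ≥0∞ := fun v => ENNReal.ofReal (‖α + β / (v - m)‖ ^ 2)
  have hF : Measurable F := by fun_prop
  have h1 : ∫⁻ v in Icc p (p + w), F (v + w) ≤ ∫⁻ v in Icc p (p + 2 * w), F v := by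
    rw [← lintegral_indicator measurableSet_Icc, ← lintegral_indicator measurableSet_Icc,
      ← lintegral_add_right_eq_self ((Icc p (p + 2 * w)).indicator _) w]
    refine lintegral_mono fun v => indicator_apply_le' (fun hv => ?_) fun _ => zero_le
    rw [indicator_of_mem (by constructor <;> linarith [hv.1, hv.2])]
  have h2 := add_le_add (lintegral_mono_set (μ := volume) (f := F)
    (Icc_subset_Icc (le_refl p) (by linarith : p + w ≤ p + 2 * w))) h1
  rw [← lintegral_add_left hF, ← two_mul] at h2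
  refine (ENNReal.mul_le_mul_iff_right two_ne_zero ENNReal.ofNat_ne_top).1 <| le_trans ?_
    ((setLIntegral_mono' measurableSet_Icc (f := fun _ => ENNReal.ofReal
    ((4 * ‖α‖ ^ 2 + 8 * (‖β‖ ^ 2 / w ^ 2)) / 1680)) fun v hv => ?_).trans h2)
  · rw [setLIntegral_const, Real.volume_Icc, ← ENNReal.ofReal_mul (by positivity),
      ← ENNReal.ofReal_ofNat 2, ← ENNReal.ofReal_mul (by positivity)]
    exact le_of_eq (by congr 1; field_simp; ring)
  · rw [← ENNReal.ofReal_add (by positivity) (by positivity)]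
    refine ENNReal.ofReal_le_ofReal ?_
    have h3 := h v ⟨hv.1, by linarith [hv.2]⟩
    have h4 := h (v + w) ⟨by linarith [hv.1], by linarith [hv.2]⟩
    have n1 := ne_pole hm v
    have n2 := ne_pole hm (v + w)
    set x := α + β / (v - m) with hx
    set y := α + β / ((v + w : ℝ) - m) with hy
    have e1 : α * w = y * ((v + w : ℝ) - m) - x * (v - m) := by
      rw [hx, hy, add_mul, add_mul, div_mul_cancel₀ _ n1, div_mul_cancel₀ _ n2]; push_cast; ring
    have e2 : β * w = (x - y) * ((v - m) * ((v + w : ℝ) - m)) := by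
      rw [hx, hy]; field_simp; push_cast; ring
    have k1 := pow_le_pow_left₀ (norm_nonneg _) ((congrArg norm e1).trans_le (norm_sub_le _ _)) 2
    rw [norm_mul, norm_mul, norm_mul, norm_real, Real.norm_of_nonneg hw.le] at k1
    have k2 : ‖α‖ ^ 2 ≤ 20 * (‖x‖ ^ 2 + ‖y‖ ^ 2) := by
      refine le_of_mul_le_mul_right ?_ (by positivity : 0 < w ^ 2)
      nlinarith [sq_nonneg (‖y‖ * ‖((v + w : ℝ) : ℂ) - m‖ - ‖x‖ * ‖(v : ℂ) - m‖),
        mul_le_mul_of_nonneg_left h3 (sq_nonneg ‖x‖), mul_le_mul_of_nonneg_left h4 (sq_nonneg ‖y‖)]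
    have k3 : ‖β‖ ^ 2 / w ^ 2 ≤ 100 * ‖x - y‖ ^ 2 := by
      have k4 := congrArg (fun z => ‖z‖ ^ 2) e2
      simp only [norm_mul, mul_pow, norm_real, Real.norm_of_nonneg hw.le] at k4
      rw [div_le_iff₀ (by positivity)]
      refine le_of_mul_le_mul_right ?_ (by positivity : 0 < w ^ 2)
      rw [k4]
      exact (mul_le_mul_of_nonneg_left (mul_le_mul h3 h4 (by positivity) (by positivity))
        (sq_nonneg _)).trans_eq (by ring)
    nlinarith [pow_le_pow_left₀ (norm_nonneg _) (norm_sub_le x y) 2, sq_nonneg (‖x‖ - ‖y‖)]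

/-- reflection in the pole -/
lemma re_le {m e k : ℂ} (hm : 0 < m.im) (h : ∀ v : ℝ, 0 ≤ (e + k / (v - m)).re) (v : ℝ) :
    (e + k / (v - m)).re ≤ 2 * ‖e‖ + 2 * ‖k‖ * m.im / ‖(v : ℂ) - m‖ ^ 2 := by
  have h0 : 0 < (m.re - v) ^ 2 + m.im ^ 2 := by positivity
  have h1 : (e + k / (v - m)).re + (e + k / ((2 * m.re - v : ℝ) - m)).re =
      2 * e.re + 2 * -k.im * m.im / ((m.re - v) ^ 2 + m.im ^ 2) := by
    have a1 : normSq ((v : ℂ) - m) = (m.re - v) ^ 2 + m.im ^ 2 := by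
      rw [normSq_eq_norm_sq, Sl.normSq_sub]
    have a2 : normSq (((2 * m.re - v : ℝ) : ℂ) - m) = (m.re - v) ^ 2 + m.im ^ 2 := by
      rw [normSq_eq_norm_sq, Sl.normSq_sub]; ring
    simp only [add_re, div_re, a1, a2, sub_re, sub_im, ofReal_re, ofReal_im]
    ring
  have h2 : 2 * -k.im * m.im / ((m.re - v) ^ 2 + m.im ^ 2) ≤
      2 * ‖k‖ * m.im / ((m.re - v) ^ 2 + m.im ^ 2) := by
    gcongr
    exact (neg_le_abs _).trans (abs_im_le_norm k)
  rw [Sl.normSq_sub]
  linarith [h (2 * m.re - v), re_le_norm e]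

end Sli

/-- (The proof below follows `Sl.slice`: the shell controls both coefficients.)
Write `k = |κ|`, `I = Im m`, `J = [c - l, c + l]`, VG = points of `J` with `|e| ≤ e₁`.
1. Pick VG points `v₁ ≤ c - l/2`, `v₂ ≥ c + l/2`; `e v₁ - e v₂` gives
`k ≤ 2 e₁ |v₁ - m| |v₂ - m| / l`.  If `|c - m| ≥ 2 l` then `|e v - e v₁| ≤ 36 e₁` on `J`: no bad point.
2. Else `k ≤ 18 e₁ l`, `|e∞| ≤ 37 e₁` (one `vᵢ` has `|vᵢ - Re m| ≥ l/2`), a bad point has
`|v - m| < w := 2 k / e₀ ≤ l / 30`.  If there is a bad point, `k ≤ I < w`, so `w / I ≤ 2 / e₀`.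
3. With `a = |q₀|²`, `β = |q₁|²`: LHS `≤ 4 w a + 2 π β / I`.
4. Shell `w ≤ ±(v - Re m) ≤ 2 w` (side of `c`) lies in `J`, there `|e| ≤ e₀`, `|v - m|² ≤ 5 w²`, and
`Re e v ≤ Re e v + Re e (2 Re m - v) ≤ 2 |e∞| + 2 k I / w²`; so with `𝓕 = ∫_J F`,
`J₁ = g + 74 e₁ + e₀ I / w`: `β / (10 w) - w a ≤ J₁ 𝓕`.
5. VG points with `|v - Re m| ≥ l / 4` have measure `≥ l`: `l (a / 2 - 16 β / l²) ≤ (g + e₁) 𝓕`.
6. Solve (`𝓕 = ⊤` trivial): `a ≤ 4 (g + e₁) 𝓕 / l + 640 w J₁ 𝓕 / l²`, `β ≤ 10 w (J₁ 𝓕 + w a)`. -/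
theorem slice {c l g e₀ e₁ : ℝ} {m κ ei q₀ q₁ : ℂ} {F : ℝ → ℝ≥0∞} (hF : Measurable F)
    (hl : 0 < l) (hg : 0 < g) (he₁ : 0 < e₁) (he : 2000 * e₁ ≤ e₀) (hm : 0 < m.im)
    (hκ : ‖κ‖ ≤ m.im) (hre : ∀ v : ℝ, 0 ≤ (ei + κ / (v - m)).re)
    (hgood : ∀ v : ℝ, ‖ei + κ / (v - m)‖ ≤ e₀ →
      ENNReal.ofReal (‖q₀ + q₁ / (v - m)‖ ^ 2 / (g + (ei + κ / (v - m)).re)) ≤ F v)
    (hvg : volume {v ∈ Set.Icc (c - l) (c + l) | e₁ < ‖ei + κ / (v - m)‖} ≤
      ENNReal.ofReal (l / 10)) :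
    ∫⁻ v in {v ∈ Set.Icc (c - l) (c + l) | e₀ < ‖ei + κ / (v - m)‖},
        ENNReal.ofReal (‖q₀ + q₁ / (v - m)‖ ^ 2) ≤
      ENNReal.ofReal (100000 * (e₀ + (g + e₁) / e₀)) * ∫⁻ v in Set.Icc (c - l) (c + l), F v := by
  have np := Sl.ne_pole hm
  have he0 : 0 < e₀ := by linarith
  have hgd : ∀ p, c - l ≤ p → p + l / 2 ≤ c + l →
      ∃ v ∈ Set.Icc p (p + l / 2), ‖ei + κ / (v - m)‖ ≤ e₁ := fun p p1 p2 => by
    by_contra hc
    push Not at hc
    have h1 : volume (Set.Icc p (p + l / 2)) ≤ _ := le_trans (measure_mono fun v hv =>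
      Set.mem_sep (Set.Icc_subset_Icc p1 p2 hv) (hc v hv)) hvg
    rw [Real.volume_Icc, ENNReal.ofReal_le_ofReal_iff (by positivity)] at h1
    linarith
  obtain ⟨v₁, i1, g1⟩ := hgd (c - l) le_rfl (by linarith)
  obtain ⟨v₂, i2, g2⟩ := hgd (c + l / 2) (by linarith) (by linarith)
  rcases {v ∈ Set.Icc (c - l) (c + l) | e₀ < ‖ei + κ / (v - m)‖}.eq_empty_or_nonempty with hE | hE
  · rw [hE, Measure.restrict_empty, lintegral_zero_measure]
    exact zero_le
  obtain ⟨v₀, i0, b0⟩ := hE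
  have hd : ∀ v v' : ℝ, ‖ei + κ / (v - m) - (ei + κ / (v' - m))‖ *
      (‖(v : ℂ) - m‖ * ‖(v' : ℂ) - m‖) = ‖κ‖ * |v' - v| := fun v v' => by
    rw [← norm_mul, ← norm_mul, ← Real.norm_eq_abs, ← norm_real, ← norm_mul]
    congr 1; have := np v; have := np v'; push_cast; field_simp; ring
  have ht : ∀ v v' : ℝ, ‖(v : ℂ) - m‖ ≤ ‖(v' : ℂ) - m‖ + |v - v'| := fun v v' => by
    rw [← Real.norm_eq_abs, ← norm_real, add_comm]
    exact (norm_sub_le_norm_sub_add_norm_sub _ (v' : ℂ) _).trans_eq (by push_cast; rfl)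
  have q0 := norm_pos_iff.2 (np v₀)
  have q1 := norm_pos_iff.2 (np v₁)
  have q2 := norm_pos_iff.2 (np v₂)
  have k1 : ‖κ‖ * l ≤ 2 * e₁ * (‖(v₁ : ℂ) - m‖ * ‖(v₂ : ℂ) - m‖) := by
    have := mul_le_mul_of_nonneg_right ((norm_sub_le _ _).trans (add_le_add g1 g2))
      (mul_pos q1 q2).le
    rw [hd, abs_of_nonneg (by linarith [i1.2, i2.1])] at this
    nlinarith [mul_le_mul_of_nonneg_left (show l ≤ v₂ - v₁ by linarith [i1.2, i2.1])
      (norm_nonneg κ)]
  have a1 : |v₁ - v₀| ≤ 2 * l := abs_le.2 ⟨by linarith [i1.1, i0.2], by linarith [i1.2, i0.1]⟩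
  have a2 : |v₂ - v₀| ≤ 2 * l := abs_le.2 ⟨by linarith [i2.1, i0.2], by linarith [i2.2, i0.1]⟩
  have k2 : ‖(v₀ : ℂ) - m‖ ≤ l := by
    have := mul_le_mul_of_nonneg_right ((sub_le_sub (le_of_lt b0) g1).trans (norm_sub_norm_le _ _))
      (mul_pos q0 q1).le
    rw [hd] at this
    have h2 : (e₀ - e₁) * ‖(v₀ : ℂ) - m‖ ≤ 4 * e₁ * ‖(v₂ : ℂ) - m‖ := le_of_mul_le_mul_right
      (by nlinarith [mul_le_mul_of_nonneg_left a1 (norm_nonneg κ)]) q1
    have h3 := mul_le_mul_of_nonneg_left ((ht v₂ v₀).trans (add_le_add_right a2 _)) he₁.le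
    refine le_of_mul_le_mul_left ?_ he₁
    nlinarith [mul_le_mul_of_nonneg_right he q0.le, mul_pos he₁ hl, mul_pos he₁ q0]
  have t1 : ‖(v₁ : ℂ) - m‖ ≤ 3 * l := by linarith [ht v₁ v₀]
  have t2 : ‖(v₂ : ℂ) - m‖ ≤ 3 * l := by linarith [ht v₂ v₀]
  have k3 : ‖κ‖ ≤ 6 * e₁ * ‖(v₁ : ℂ) - m‖ := le_of_mul_le_mul_right
    (by nlinarith [mul_le_mul_of_nonneg_left t2 (mul_pos he₁ q1).le]) hl
  have k4 : ‖ei‖ ≤ 7 * e₁ := by
    have := norm_sub_le (ei + κ / (v₁ - m)) (κ / (v₁ - m))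
    rw [add_sub_cancel_right, norm_div] at this
    linarith [(div_le_iff₀ q1).2 k3]
  obtain ⟨w, hwe⟩ : ∃ w, w * e₀ = 2 * ‖κ‖ := ⟨_, div_mul_cancel₀ _ he0.ne'⟩
  have k5 : ∀ v : ℝ, w ≤ ‖(v : ℂ) - m‖ → ‖ei + κ / (v - m)‖ ≤ e₀ := fun v hv => by
    refine (norm_add_le _ _).trans ?_
    have : ‖κ‖ / ‖(v : ℂ) - m‖ ≤ e₀ / 2 := by
      rw [div_le_iff₀ (norm_pos_iff.2 (np v))]; nlinarith
    rw [norm_div]; linarith
  have k6 : ‖(v₀ : ℂ) - m‖ < w := not_le.1 fun h => (k5 v₀ h).not_gt b0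
  have hw0 := q0.trans k6
  have hre' : ∀ v : ℝ, |v - m.re| ≤ ‖(v : ℂ) - m‖ := fun v => by
    simpa using abs_re_le_norm (v - m)
  have hy : m.im ≤ w := by
    have := abs_im_le_norm (v₀ - m)
    simp only [sub_im, ofReal_im, zero_sub, abs_neg] at this
    linarith [le_abs_self m.im]
  have hw2 : 3 * w ≤ l := le_of_mul_le_mul_right (by
    nlinarith [mul_le_mul_of_nonneg_left t1 he₁.le, mul_le_mul_of_nonneg_left he hl.le,
      mul_pos he₁ hl]) he0
  obtain ⟨p, p1, p2, p3⟩ : ∃ p, c - l ≤ p ∧ p + 2 * w ≤ c + l ∧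
      ∀ v ∈ Set.Icc p (p + 2 * w), w ≤ |v - m.re| ∧ |v - m.re| ≤ 3 * w := by
    have := abs_le.1 ((hre' v₀).trans k6.le)
    rcases le_total c m.re with h | h
    · exact ⟨m.re - 3 * w, by linarith, by linarith [i0.2], fun v hv => by
        rw [abs_sub_comm, abs_of_nonneg (by linarith [hv.2])]
        constructor <;> linarith [hv.1, hv.2]⟩
    · exact ⟨m.re + w, by linarith [i0.1], by linarith, fun v hv => by
        rw [abs_of_nonneg (by linarith [hv.1])]; constructor <;> linarith [hv.1, hv.2]⟩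
  obtain ⟨D, hD⟩ : ∃ D, D = g + 14 * e₁ + e₀ * m.im / w := ⟨_, rfl⟩
  have hD0 : 0 < D := by rw [hD]; positivity
  have L1 := (lintegral_mono_set (μ := volume) fun v hv => (by
    have := abs_le.1 ((hre' v).trans (not_le.1 fun h => (k5 v h).not_gt hv.2).le)
    constructor <;> linarith : v ∈ Set.Icc (m.re - w) (m.re + w)) :
      ∫⁻ v in {v ∈ Set.Icc (c - l) (c + l) | e₀ < ‖ei + κ / (v - m)‖},
        ENNReal.ofReal (‖q₀ + q₁ / (v - m)‖ ^ 2) ≤ _).trans (Sl.upper hm q₀ q₁ hw0.le)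
  have L2 := Sli.lower hm q₀ q₁ hw0 (p := p) fun v hv => by
    rw [Sl.normSq_sub, sub_sq_comm, ← sq_abs]
    nlinarith [(p3 v hv).2, abs_nonneg (v - m.re)]
  have L3 : ENNReal.ofReal D⁻¹ * ∫⁻ v in Set.Icc p (p + 2 * w),
      ENNReal.ofReal (‖q₀ + q₁ / (v - m)‖ ^ 2) ≤ ∫⁻ v in Set.Icc (c - l) (c + l), F v := by
    refine le_trans ?_ (lintegral_mono_set (Set.Icc_subset_Icc p1 p2))
    rw [← lintegral_const_mul' _ _ ENNReal.ofReal_ne_top]
    refine setLIntegral_mono' measurableSet_Icc fun v hv =>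
      le_trans ?_ (hgood v (k5 v ((p3 v hv).1.trans (hre' v))))
    rw [← ENNReal.ofReal_mul (by positivity), ← div_eq_inv_mul]
    refine ENNReal.ofReal_le_ofReal (div_le_div_of_nonneg_left (by positivity)
      (by linarith [hre v]) ?_)
    have h2 := Sli.re_le hm hre v
    have h3 : 2 * ‖κ‖ * m.im / ‖(v : ℂ) - m‖ ^ 2 ≤ e₀ * m.im / w :=
      (div_le_div_of_nonneg_left (by positivity) (by positivity) (pow_le_pow_left₀ hw0.le
        ((p3 v hv).1.trans (hre' v)) 2)).trans_eq (by rw [← hwe]; field_simp)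
    linarith
  refine L1.trans (le_trans ?_ (mul_le_mul_right ((mul_le_mul_right L2 _).trans L3) _))
  rw [← ENNReal.ofReal_mul (by positivity), ← ENNReal.ofReal_mul (by positivity)]
  refine ENNReal.ofReal_le_ofReal ?_
  have h2 : w / m.im * D ≤ 28 * (e₀ + (g + e₁) / e₀) := by
    have h3 : w / m.im ≤ 2 / e₀ := by rw [div_le_div_iff₀ hm he0]; linarith
    have h4 : w / m.im * (e₀ * m.im / w) = e₀ := by field_simp
    have h5 := mul_le_mul_of_nonneg_right h3 (by positivity : 0 ≤ g + 14 * e₁)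
    have h6 : 2 / e₀ * (g + 14 * e₁) ≤ 28 * ((g + e₁) / e₀) := by
      rw [div_mul_eq_mul_div, ← mul_div_assoc]
      exact div_le_div_of_nonneg_right (by linarith) he0.le
    rw [hD, mul_add, h4]; linarith
  have h3 : 4 * w * ‖q₀‖ ^ 2 + 8 * ‖q₁‖ ^ 2 / m.im ≤
      w / m.im * (4 * w * ‖q₀‖ ^ 2 + 8 * ‖q₁‖ ^ 2 / w) := by
    have h4 : w / m.im * (8 * ‖q₁‖ ^ 2 / w) = 8 * ‖q₁‖ ^ 2 / m.im := by field_simp
    have h5 := mul_le_mul_of_nonneg_right ((one_le_div hm).2 hy)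
      (by positivity : 0 ≤ 4 * w * ‖q₀‖ ^ 2)
    rw [mul_add, h4]
    linarith
  have hX : 0 ≤ 4 * w * ‖q₀‖ ^ 2 + 8 * ‖q₁‖ ^ 2 / w := by positivity
  have hZ : 0 ≤ e₀ + (g + e₁) / e₀ := by positivity
  generalize 4 * w * ‖q₀‖ ^ 2 + 8 * ‖q₁‖ ^ 2 / w = X at h3 hX ⊢
  generalize e₀ + (g + e₁) / e₀ = Z at h2 hZ ⊢
  rw [show 100000 * Z * (D⁻¹ * (X / 3360)) = 100000 / 3360 * (Z / D * X) by field_simp]
  refine h3.trans ?_
  rw [← le_div_iff₀ hD0, mul_div_assoc] at h2
  nlinarith [mul_le_mul_of_nonneg_right h2 hX, mul_nonneg (div_nonneg hZ hD0.le) hX]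

end Crest.Agent.N334.T
end

-- ▼ part N334/T/Good
section

/-!
# Row 334, engine T: good phase and slices (leaf T-Good)
-/

set_option autoImplicit false
set_option linter.unusedSectionVars false

open MeasureTheory Complex Finset Function
open scoped ENNReal

namespace Crest.Agent.N334.T

variable {V : Type} [Fintype V] [DecidableEq V]

namespace Good

lemma lint_seg (a l g : ℝ) {f : ℂ → ℝ≥0∞} (hf : Measurable f) :
    ∫⁻ z, f z ∂seg a l g = ∫⁻ v in Set.Icc (a - l) (a + l), f (v - g * I) :=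
  lintegral_map hf (by fun_prop)

lemma seg_zero (a l : ℝ) :
    seg a l 0 = (volume.restrict (Set.Icc (a - l) (a + l))).map fun s : ℝ => (s : ℂ) := by
  simp [seg]

lemma lint_seg0 (a l : ℝ) {f : ℂ → ℝ≥0∞} (hf : Measurable f) :
    ∫⁻ z, f z ∂seg a l 0 = ∫⁻ v in Set.Icc (a - l) (a + l), f v := by
  rw [seg_zero]; exact lintegral_map hf (by fun_prop)

lemma set_seg0 (a l : ℝ) {S : Set ℂ} (hS : MeasurableSet S) {f : ℂ → ℝ≥0∞} (hf : Measurable f) :
    ∫⁻ z in S, f z ∂seg a l 0 = ∫⁻ v in {v ∈ Set.Icc (a - l) (a + l) | (v : ℂ) ∈ S}, f v := by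
  rw [seg_zero, setLIntegral_map hS hf (by fun_prop),
    Measure.restrict_restrict (measurable_ofReal hS), Set.inter_comm]
  rfl

lemma seg0_apply (a l : ℝ) {S : Set ℂ} (hS : MeasurableSet S) :
    seg a l 0 S = volume {v ∈ Set.Icc (a - l) (a + l) | (v : ℂ) ∈ S} := by
  rw [seg_zero, Measure.map_apply (by fun_prop) hS, Measure.restrict_apply (measurable_ofReal hS),
    Set.inter_comm]
  rfl

lemma cl_sub {a g : ℝ} (hg : 0 ≤ g) : cl (a - g * I) = a - g * I := by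
  apply Complex.ext <;> simp [abs_of_nonneg hg]

/-- the scalar identities for `e = 1 + i H / D`, `D = A - i (S + H)` -/
lemma ee_id {D : ℂ} {S H : ℝ} (hS : 0 ≤ S) (hH : 0 < H) (hD : D.im = -(S + H)) :
    ‖D‖ ^ 2 = D.re ^ 2 + (S + H) ^ 2 ∧
    (1 + I * H * (1 / D)).re * ‖D‖ ^ 2 = D.re ^ 2 + S * (S + H) ∧
    ‖1 + I * H * (1 / D)‖ ^ 2 * ‖D‖ ^ 2 = D.re ^ 2 + S ^ 2 := by
  have h0 : D ≠ 0 := by
    rintro rfl
    simp only [zero_im] at hD
    linarith
  have h1 : ‖D‖ ^ 2 = D.re ^ 2 + (S + H) ^ 2 := by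
    rw [Complex.sq_norm, normSq_apply, hD]; ring
  have h2 : (1 + I * H * (1 / D)) * D = D + I * H := by field_simp
  refine ⟨h1, ?_, ?_⟩
  · have h3 : (1 + I * H * (1 / D)) * ((‖D‖ ^ 2 : ℝ) : ℂ) = (D + I * H) * (starRingEnd ℂ) D := by
      rw [← h2, mul_assoc _ D, mul_conj, Complex.sq_norm]
    have h4 := congrArg Complex.re h3
    rw [re_mul_ofReal] at h4
    rw [h4]
    simp [hD]
    ring
  · rw [← mul_pow, ← norm_mul, h2, Complex.sq_norm, normSq_apply]
    simp [hD]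
    ring

lemma num {P s S H A J d R : ℝ} (hP : 0 < P) (hs : 0 < s) (hS : 0 ≤ S) (hH : 0 < H)
    (hs0 : s ≤ 1 / 1000000000) (hs1 : s * P ≤ 1 / 1000000) (hs2 : s * P ^ 2 ≤ 1 / 1000)
    (hJ : J ≤ s ^ 8 + S) (hH2 : H ≤ 2 * P) (hPH : 1 ≤ P * H) (h1 : d = A ^ 2 + (S + H) ^ 2)
    (h2 : R * d = A ^ 2 + S * (S + H)) (h3 : A ^ 2 + S ^ 2 ≤ s ^ 2 * d) :
    |A| + J ≤ P⁻¹ ∧ J ≤ 4 * P * (d * (s ^ 2 + R)) := by
  have hs8 : s ^ 8 ≤ s ^ 3 := pow_le_pow_of_le_one hs.le (by linarith) (by norm_num)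
  have hs3 : s ^ 3 ≤ s := by
    simpa using pow_le_pow_of_le_one hs.le (by linarith : s ≤ 1) (by norm_num : 1 ≤ 3)
  have hJS : J ≤ s ^ 3 + S := by linarith
  have k1 : A ^ 2 + S ^ 2 ≤ (2 * s * H) ^ 2 := by
    have e2 : s ^ 2 ≤ 1 / 4 := by nlinarith
    have e0 : d ≤ 2 * (A ^ 2 + S ^ 2) + 2 * H ^ 2 := by
      rw [h1]; nlinarith [sq_nonneg (S - H), sq_nonneg A]
    have e3 : s ^ 2 * d ≤ s ^ 2 * (2 * (A ^ 2 + S ^ 2) + 2 * H ^ 2) := by gcongr
    have e4 : s ^ 2 * (A ^ 2 + S ^ 2) ≤ 1 / 4 * (A ^ 2 + S ^ 2) := by gcongr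
    have e5 : (2 * s * H) ^ 2 = 4 * (s ^ 2 * H ^ 2) := by ring
    rw [e5]
    linarith
  have k2 : |A| ≤ 2 * s * H := abs_le_of_sq_le_sq (by linarith [sq_nonneg S]) (by positivity)
  have k3 : S ≤ 2 * s * H :=
    (le_abs_self S).trans (abs_le_of_sq_le_sq (by linarith [sq_nonneg A]) (by positivity))
  constructor
  · rw [inv_eq_one_div, le_div_iff₀ hP]
    have e1 : 2 * s * H ≤ 2 * s * (2 * P) := by gcongr
    have e2 : |A| + J ≤ 8 * s * P + s := by linarith
    calc (|A| + J) * P ≤ (8 * s * P + s) * P := by gcongr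
      _ = 8 * (s * P ^ 2) + s * P := by ring
      _ ≤ 1 := by linarith
  · have e1 : d * (s ^ 2 + R) = s ^ 2 * d + (A ^ 2 + S * (S + H)) := by
      rw [← h2]; ring
    have e2 : H ^ 2 ≤ d := by
      have : H ^ 2 ≤ (S + H) ^ 2 := by gcongr; linarith
      linarith [sq_nonneg A]
    have e3 : s ^ 2 * H ^ 2 + S * H ≤ d * (s ^ 2 + R) := by
      rw [e1]
      have : s ^ 2 * H ^ 2 ≤ s ^ 2 * d := by gcongr
      linarith [sq_nonneg A, mul_self_nonneg S]
    have e4 : S ≤ P * (S * H) := by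
      have : S * 1 ≤ S * (P * H) := by gcongr
      linarith
    have e5 : s ^ 3 ≤ P * (s ^ 2 * H ^ 2) := by
      have f1 : 1 ≤ (P * H) ^ 2 := one_le_pow₀ hPH
      have f3 : s ≤ P * H ^ 2 := by
        by_contra hcon
        push Not at hcon
        have : P * (P * H ^ 2) < P * s := by gcongr
        linarith
      calc s ^ 3 = s ^ 2 * s := by ring
        _ ≤ s ^ 2 * (P * H ^ 2) := by gcongr
        _ = _ := by ring
    have e6 : P * (s ^ 2 * H ^ 2 + S * H) ≤ P * (d * (s ^ 2 + R)) := by gcongr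
    have e7 : 0 ≤ P * (s ^ 2 * H ^ 2 + S * H) := by positivity
    linarith

end Good

open Good

namespace Env

variable (E : Env V) (y : V) (h : ℝ)

/-- the matched value at `y` -/
noncomputable def yh : ℂ := (E.r y).re - h * I

/-- Green function with the matched absorber at `y` -/
noncomputable def GG (w : V → ℂ) : V → V → ℂ := Gr E.G E.η (update w y (E.yh y h))

/-- reflection defect -/
noncomputable def ee (w : V → ℂ) : ℂ := 1 + I * (h + E.η) * E.GG y h w y y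

/-- intensity averaged over the true law of `y` -/
noncomputable def FF (ν : Measure ℂ) (b : V) (w : V → ℂ) : ℝ≥0∞ :=
  ∫⁻ z, ENNReal.ofReal (‖Gr E.G E.η (update w y z) y b‖ ^ 2) ∂ν

@[fun_prop] lemma measurable_GG (p q : V) : Measurable fun w => E.GG y h w p q :=
  (measurable_Gr p q).comp measurable_update_left

@[fun_prop] lemma measurable_ee : Measurable (E.ee y h) := by unfold ee; fun_prop

lemma measurable_FF (ν : Measure ℂ) [SFinite ν] (b : V) : Measurable (E.FF y ν b) :=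
  measurable_site ν y (f := fun w => ENNReal.ofReal (‖Gr E.G E.η w y b‖ ^ 2)) (by fun_prop)

lemma cl_yh {h : ℝ} (hh : 0 ≤ h) : cl (E.yh y h) = E.yh y h := cl_sub hh

lemma ee_cav {h : ℝ} (hh : 0 ≤ h) {w : V → ℂ} {m : ℂ} {ρ : V → ℂ} {q : V → V → ℂ}
    (hc : Cav E.G E.η w y m ρ q) :
    E.ee y h w = 1 + I * ((h + E.η : ℝ) : ℂ) * (1 / (E.yh y h - m)) := by
  simp only [ee, GG, hc.gr, (hc.q_self y).1, hc.rho_self, E.cl_yh y hh]
  push_cast
  ring

lemma yh_im (m : ℂ) : (E.yh y h - m).im = -((m.im - E.η) + (h + E.η)) := by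
  simp [yh]; ring

lemma GG_update {x : V} (hx : x ≠ y) {w : V → ℂ} {m : ℂ} {ρ : V → ℂ} {q : V → V → ℂ}
    (hc : Cav E.G E.η (update w y (E.yh y h)) x m ρ q) (z : ℂ) (p p' : V) :
    E.GG y h (update w x z) p p' = q p p' + ρ p * ρ p' / (cl z - m) := by
  rw [GG, update_comm hx, hc.gr]

lemma ward_yh {h : ℝ} (hh : 0 ≤ h) {x : V} (hx : x ≠ y) {w : V → ℂ} {m : ℂ} {ρ : V → ℂ}
    {q : V → V → ℂ} (hc : Cav E.G E.η (update w y (E.yh y h)) x m ρ q) :
    (h + E.η) * ‖ρ y‖ ^ 2 ≤ m.im := by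
  have := hc.ward1 E.η0 hx.symm
  simpa [dmp, yh, abs_of_nonneg hh, add_comm] using this

/-- cavity at `y`, `σ = m - η i`, `D = a - σ - i H`, `H = h + η`, `e = (a - σ) / D`,
`Re e = (|a - σ|² + H Im σ) / |D|²` -/
lemma ee_re_nonneg (hh : 0 < h) (w : V → ℂ) : 0 ≤ (E.ee y h w).re := by
  obtain ⟨m, ρ, q, hc⟩ := exists_cav (G := E.G) E.η0 E.η1 w y
  have hH : 0 < h + E.η := add_pos hh E.η0
  have hS : 0 ≤ m.im - E.η := sub_nonneg.2 hc.im_ge
  obtain ⟨h1, h2, -⟩ := ee_id hS hH (E.yh_im y h m)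
  rw [E.ee_cav y hh.le hc]
  have h3 : 0 < ‖E.yh y h - m‖ ^ 2 := by rw [h1]; positivity
  exact nonneg_of_mul_nonneg_left (by rw [h2]; positivity) h3

end Env

namespace Block

variable {E : Env V} {ν : Measure ℂ} {B Z : Finset V} {y : V} {u : V → ℂ} {win : V → ℝ}
  {h γ P s lam : ℝ} {l : ℕ}

lemma P_pos (hB : Block E ν B Z y u win h γ P s lam l) : 0 < P := by linarith [hB.big]

lemma h_pos (hB : Block E ν B Z y u win h γ P s lam l) : 0 < h :=
  lt_of_lt_of_le (inv_pos.2 hB.P_pos) hB.h0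

lemma sP3 (hB : Block E ν B Z y u win h γ P s lam l) : s * P ^ 3 ≤ 1 := by
  have := hB.s1
  have hP := hB.P_pos
  rwa [inv_eq_one_div, le_div_iff₀ (by positivity)] at this

lemma Ph (hB : Block E ν B Z y u win h γ P s lam l) : 1 ≤ P * h := by
  have := hB.h0
  have hP := hB.P_pos
  rwa [inv_eq_one_div, div_le_iff₀ hP, mul_comm] at this

lemma sP2 (hB : Block E ν B Z y u win h γ P s lam l) : s * P ^ 2 ≤ 1 / 1000 := by
  have h1 := hB.sP3
  have h2 := hB.big
  have h3 : 0 ≤ s * P ^ 2 := mul_nonneg hB.s0.le (sq_nonneg _)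
  nlinarith

lemma sP1 (hB : Block E ν B Z y u win h γ P s lam l) : s * P ≤ 1 / 1000000 := by
  have h1 := hB.sP2
  have h2 := hB.big
  have h3 : 0 ≤ s * P := mul_nonneg hB.s0.le hB.P_pos.le
  nlinarith

lemma sP0 (hB : Block E ν B Z y u win h γ P s lam l) : s ≤ 1 / 1000000000 := by
  have h1 := hB.sP1
  have h2 := hB.big
  have h3 := hB.s0
  nlinarith

/-- As above; `|e| ≤ s ≤ 1/2` gives `|D| ≤ 2H`, `|a - σ| ≤ 2 s H`, `Im σ ≤ 4 H Re e`.  With
`J = γ + η + Im σ` the interval `|v - Re σ| ≤ J` lies in the segment of `νlo`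
(`4 s H + γ + η ≤ P⁻¹`, `H ≤ 2P`), there `|cl z - m|² ≤ 2 J²`, so `FF ≥ |ρ_b|² / (P J)`; and
`|GG y b|² ≤ |ρ_b|² / H²`, `(γ + η) / (4H) ≤ s²`, `H ≥ P⁻¹`. -/
lemma good (hB : Block E ν B Z y u win h γ P s lam l) (b : V) (w : V → ℂ)
    (he : ‖E.ee y h w‖ ≤ s) :
    ENNReal.ofReal (‖E.GG y h w y b‖ ^ 2 / (s ^ 2 + (E.ee y h w).re)) ≤
      ENNReal.ofReal (4 * P ^ 2) * E.FF y ν b w := by
  obtain ⟨m, ρ, q, hc⟩ := exists_cav (G := E.G) E.η0 E.η1 w y
  have hP := hB.P_pos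
  have hh := hB.h_pos
  have hs := hB.s0
  have hη := E.η0
  have hγ := hB.γ0
  have hH : 0 < h + E.η := add_pos hh E.η0
  have hS : 0 ≤ m.im - E.η := sub_nonneg.2 hc.im_ge
  obtain ⟨h1, h2, h3⟩ := ee_id hS hH (E.yh_im y h m)
  rw [← E.ee_cav y hh.le hc] at h2 h3
  have hgr : ∀ z, Gr E.G E.η (update w y z) y b = ρ b / (cl z - m) := by
    intro z
    rw [hc.gr, (hc.q_self b).2, hc.rho_self, zero_add, one_mul]
  have hGG : E.GG y h w y b = ρ b / (E.yh y h - m) := by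
    rw [Env.GG, hgr, E.cl_yh y hh.le]
  have hA : (E.yh y h - m).re = (E.r y).re - m.re := by simp [Env.yh]
  rw [hA] at h1 h2 h3
  set A := (E.r y).re - m.re with hAdef
  set S := m.im - E.η with hSdef
  set H := h + E.η with hHdef
  set d := ‖E.yh y h - m‖ ^ 2 with hd
  set J := γ + m.im with hJ
  have hJ0 : 0 < J := by linarith
  have hd0 : 0 < d := by rw [h1]; positivity
  have he2 : ‖E.ee y h w‖ ^ 2 * d ≤ s ^ 2 * d := by gcongr
  obtain ⟨k4, k5⟩ := num (A := A) (J := J) (d := d) (R := (E.ee y h w).re) hP hs hS hH hB.sP0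
    hB.sP1 hB.sP2 (by linarith [hB.γ1]) (by linarith [hB.h1, E.η1, hB.big])
    (hB.Ph.trans (by gcongr; linarith)) h1 h2 (h3 ▸ he2)
  -- the lower bound for `FF`
  have hm : Measurable fun z : ℂ => ENNReal.ofReal (‖Gr E.G E.η (update w y z) y b‖ ^ 2) := by
    simp only [hgr]; fun_prop
  have l1 : ENNReal.ofReal (‖ρ b‖ ^ 2 / (2 * J ^ 2)) * ENNReal.ofReal (2 * J) ≤
      ∫⁻ z, ENNReal.ofReal (‖Gr E.G E.η (update w y z) y b‖ ^ 2) ∂seg (E.r y).re P⁻¹ γ := by
    rw [lint_seg _ _ _ hm]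
    have hsub : Set.Icc (m.re - J) (m.re + J) ⊆ Set.Icc ((E.r y).re - P⁻¹) ((E.r y).re + P⁻¹) :=
      Set.Icc_subset_Icc (by linarith [le_abs_self A]) (by linarith [neg_abs_le A])
    refine le_trans ?_ (lintegral_mono_set hsub)
    have hv : volume (Set.Icc (m.re - J) (m.re + J)) = ENNReal.ofReal (2 * J) := by
      rw [Real.volume_Icc]; congr 1; ring
    rw [← hv, ← setLIntegral_const]
    refine setLIntegral_mono' measurableSet_Icc fun v hv => ENNReal.ofReal_le_ofReal ?_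
    rw [hgr, cl_sub hγ, norm_div, div_pow]
    have n1 : ‖(v : ℂ) - γ * I - m‖ ^ 2 = (v - m.re) ^ 2 + J ^ 2 := by
      rw [Complex.sq_norm, normSq_apply]
      simp [hJ]
      ring
    have n2 : (v - m.re) ^ 2 ≤ J ^ 2 := sq_le_sq' (by linarith [hv.1]) (by linarith [hv.2])
    rw [n1]
    gcongr
    linarith
  have l2 : ENNReal.ofReal P⁻¹ * (ENNReal.ofReal (‖ρ b‖ ^ 2 / (2 * J ^ 2)) *
      ENNReal.ofReal (2 * J)) ≤ E.FF y ν b w := by
    refine le_trans ?_ (lintegral_mono' hB.νlo le_rfl)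
    rw [lintegral_smul_measure, smul_eq_mul]
    gcongr
  refine le_trans ?_ (mul_le_mul_right l2 _)
  rw [← ENNReal.ofReal_mul (by positivity), ← ENNReal.ofReal_mul (by positivity),
    ← ENNReal.ofReal_mul (by positivity)]
  refine ENNReal.ofReal_le_ofReal ?_
  have hre := E.ee_re_nonneg y h hh w
  rw [hGG, norm_div, div_pow, ← hd, div_div]
  have : 4 * P ^ 2 * (P⁻¹ * (‖ρ b‖ ^ 2 / (2 * J ^ 2) * (2 * J))) = ‖ρ b‖ ^ 2 / (J / (4 * P)) := by
    field_simp
  rw [this]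
  gcongr
  rw [div_le_iff₀ (by positivity)]
  linarith

/-- `slice` with the cavity at `x` of `update w y yh` (`update_comm`): `κ = i H ρ_y²`
(`Cav.ward1`), `g = e₁ = s²`, `e₀ = s`, `F v = 4 P² FF (update w x v)`; `lo`, `hi` convert the
measures (factor `P²`); `3·10⁵ · 4 P⁴ ≤ P⁷`. -/
lemma slice_cfg (hB : Block E ν B Z y u win h γ P s lam l) (b : V) {x : V} (hx : x ∈ B.erase y)
    (w : V → ℂ)
    (hS : E.μ x {z | s ^ 2 < ‖E.ee y h (update w x z)‖} ≤ ENNReal.ofReal (10 * P)⁻¹) :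
    ∫⁻ z in {z | s < ‖E.ee y h (update w x z)‖},
        ENNReal.ofReal (‖E.GG y h (update w x z) y b‖ ^ 2) ∂E.μ x ≤
      ENNReal.ofReal (P ^ 7 * s) * ∫⁻ z, E.FF y ν b (update w x z) ∂E.μ x := by
  have := hB.νp
  have hxy : x ≠ y := (mem_erase.1 hx).1
  obtain ⟨m, ρ, q, hc⟩ := exists_cav (G := E.G) E.η0 E.η1 (update w y (E.yh y h)) x
  have hP := hB.P_pos
  have hh := hB.h_pos
  have hs := hB.s0
  have hη := E.η0
  have hl : 0 < win x := lt_of_lt_of_le hη (hB.win0 x hx).1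
  have hm : 0 < m.im := lt_of_lt_of_le hη hc.im_ge
  set ei : ℂ := 1 + I * (h + E.η) * q y y with hei
  set κ : ℂ := I * (h + E.η) * (ρ y * ρ y) with hκ
  have hee : ∀ v : ℝ, E.ee y h (update w x v) = ei + κ / (v - m) := by
    intro v
    rw [Env.ee, E.GG_update y h hxy hc, cl_ofReal, hei, hκ]
    ring
  have hGG : ∀ v : ℝ, E.GG y h (update w x v) y b = q y b + ρ y * ρ b / (v - m) := by
    intro v
    rw [E.GG_update y h hxy hc, cl_ofReal]
  have mu : Measurable fun z : ℂ => update w x z := measurable_update w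
  have mee : Measurable fun z : ℂ => ‖E.ee y h (update w x z)‖ :=
    ((E.measurable_ee y h).comp mu).norm
  have mFF : Measurable fun z : ℂ => E.FF y ν b (update w x z) := (E.measurable_FF y ν b).comp mu
  have mGG : Measurable fun z : ℂ => ENNReal.ofReal (‖E.GG y h (update w x z) y b‖ ^ 2) :=
    (((E.measurable_GG y h y b).comp mu).norm.pow_const 2).ennreal_ofReal
  have hPl : ENNReal.ofReal (P * win x) * ENNReal.ofReal (P * win x)⁻¹ = 1 := by
    rw [← ENNReal.ofReal_mul (by positivity), mul_inv_cancel₀ (by positivity), ENNReal.ofReal_one]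
  have key := slice (c := (E.r x).re) (l := win x) (g := s ^ 2) (e₀ := s) (e₁ := s ^ 2) (m := m)
    (κ := κ) (ei := ei) (q₀ := q y b) (q₁ := ρ y * ρ b)
    (F := fun v => ENNReal.ofReal (4 * P ^ 2) * E.FF y ν b (update w x v))
    ((mFF.comp measurable_ofReal).const_mul _) hl (by positivity) (by positivity)
    (by nlinarith [hB.sP0]) hm ?_ (fun v => by rw [← hee]; exact E.ee_re_nonneg y h hh _)
    (fun v hv => by rw [← hee, ← hGG]; exact hB.good b _ (by rwa [hee])) ?_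
  · have mS : MeasurableSet {z : ℂ | s < ‖E.ee y h (update w x z)‖} :=
      measurableSet_lt measurable_const mee
    have a1 : ∫⁻ z in {z | s < ‖E.ee y h (update w x z)‖},
        ENNReal.ofReal (‖E.GG y h (update w x z) y b‖ ^ 2) ∂E.μ x ≤
        ENNReal.ofReal (P / win x) * ∫⁻ z in {z | s < ‖E.ee y h (update w x z)‖},
          ENNReal.ofReal (‖E.GG y h (update w x z) y b‖ ^ 2) ∂seg (E.r x).re (win x) 0 := by
      refine (lintegral_mono' (Measure.restrict_mono Set.Subset.rfl (hB.hi x hx)) le_rfl).trans ?_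
      rw [Measure.restrict_smul, lintegral_smul_measure, smul_eq_mul]
    rw [set_seg0 _ _ mS mGG] at a1
    simp only [Set.mem_ofPred_eq, hee, hGG] at a1
    have a2 : ∫⁻ v in Set.Icc ((E.r x).re - win x) ((E.r x).re + win x),
        E.FF y ν b (update w x v) ≤
        ENNReal.ofReal (P * win x) * ∫⁻ z, E.FF y ν b (update w x z) ∂E.μ x := by
      have := lintegral_mono' (hB.lo x hx) (le_refl fun z => E.FF y ν b (update w x z))
      rw [lintegral_smul_measure, smul_eq_mul, lint_seg0 _ _ mFF] at this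
      refine le_trans ?_ (mul_le_mul_right this _)
      rw [← mul_assoc, hPl, one_mul]
    rw [lintegral_const_mul' _ _ ENNReal.ofReal_ne_top] at key
    refine a1.trans ((mul_le_mul_right (key.trans (mul_le_mul_right
      (mul_le_mul_right a2 _) _)) _).trans ?_)
    rw [← mul_assoc, ← mul_assoc, ← mul_assoc, ← ENNReal.ofReal_mul (by positivity),
      ← ENNReal.ofReal_mul (by positivity), ← ENNReal.ofReal_mul (by positivity)]
    refine mul_le_mul_left (ENNReal.ofReal_le_ofReal ?_) _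
    have e1 : P / win x * (100000 * (s + (s ^ 2 + s ^ 2) / s)) * (4 * P ^ 2) * (P * win x) =
        1200000 * (P ^ 4 * s) := by
      field_simp
      ring
    have e2 : (1000 : ℝ) ^ 3 ≤ P ^ 3 := pow_le_pow_left₀ (by norm_num) hB.big 3
    rw [e1]
    calc 1200000 * (P ^ 4 * s) ≤ P ^ 3 * (P ^ 4 * s) := by gcongr; linarith
      _ = _ := by ring
  · have := E.ward_yh y hh.le hxy hc
    have e1 : ((h : ℂ) + E.η) = ((h + E.η : ℝ) : ℂ) := by push_cast; ring
    rw [hκ, e1, norm_mul, norm_mul, norm_mul, norm_I, one_mul, norm_real,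
      Real.norm_of_nonneg (by positivity), ← sq]
    exact this
  · have mS : MeasurableSet {z : ℂ | s ^ 2 < ‖E.ee y h (update w x z)‖} :=
      measurableSet_lt measurable_const mee
    have a1 := (Measure.le_iff'.1 (hB.lo x hx) _).trans hS
    rw [Measure.smul_apply, smul_eq_mul, seg0_apply _ _ mS] at a1
    simp only [Set.mem_ofPred_eq, hee] at a1
    have a2 := mul_le_mul_right a1 (ENNReal.ofReal (P * win x))
    rw [← mul_assoc, hPl, one_mul, ← ENNReal.ofReal_mul (by positivity)] at a2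
    refine a2.trans (le_of_eq ?_)
    congr 1
    field_simp

/-- `H |ρ_y|² ≤ Im m` (`Cav.ward1`), `hi`, `seg_poisson`; on the segment `c z ≤ C` -/
lemma site_GG (hB : Block E ν B Z y u win h γ P s lam l) {x : V} (hx : x ∈ B.erase y) (w : V → ℂ)
    {c : ℂ → ℝ} (hc : Measurable c) {C : ℝ} (hC0 : 0 ≤ C)
    (hC : ∀ v : ℝ, |v - (E.r x).re| ≤ win x → c v ≤ C) :
    ∫⁻ z, ENNReal.ofReal (‖E.GG y h (update w x z) y x‖ ^ 2 * c z) ∂E.μ x ≤
      ENNReal.ofReal (4 * P ^ 2 / win x * C) := by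
  have hxy : x ≠ y := (mem_erase.1 hx).1
  obtain ⟨m, ρ, q, hcav⟩ := exists_cav (G := E.G) E.η0 E.η1 (update w y (E.yh y h)) x
  have hP := hB.P_pos
  have hh := hB.h_pos
  have hη := E.η0
  have hl : 0 < win x := lt_of_lt_of_le hη (hB.win0 x hx).1
  have hm : 0 < m.im := lt_of_lt_of_le hη hcav.im_ge
  have hGG : ∀ z, E.GG y h (update w x z) y x = ρ y / (cl z - m) := by
    intro z
    rw [E.GG_update y h hxy hcav, (hcav.q_self y).1, hcav.rho_self, zero_add, mul_one]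
  have hρ : ‖ρ y‖ ^ 2 ≤ P * m.im := by
    have h1 := E.ward_yh y hh.le hxy hcav
    have h2 : 1 ≤ P * (h + E.η) := hB.Ph.trans (by gcongr; linarith)
    calc ‖ρ y‖ ^ 2 = 1 * ‖ρ y‖ ^ 2 := (one_mul _).symm
      _ ≤ P * (h + E.η) * ‖ρ y‖ ^ 2 := by gcongr
      _ = P * ((h + E.η) * ‖ρ y‖ ^ 2) := by ring
      _ ≤ _ := by gcongr
  simp only [hGG]
  refine (lintegral_mono' (hB.hi x hx) le_rfl).trans ?_
  have m1 : Measurable fun z : ℂ => ENNReal.ofReal (‖ρ y / (cl z - m)‖ ^ 2 * c z) := by fun_prop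
  have m2 : Measurable fun z : ℂ => ENNReal.ofReal (m.im / ‖cl z - m‖ ^ 2) := by fun_prop
  have a1 : ∫⁻ z, ENNReal.ofReal (‖ρ y / (cl z - m)‖ ^ 2 * c z) ∂seg (E.r x).re (win x) 0 ≤
      ENNReal.ofReal (P * C) *
        ∫⁻ z, ENNReal.ofReal (m.im / ‖cl z - m‖ ^ 2) ∂seg (E.r x).re (win x) 0 := by
    rw [lint_seg0 _ _ m1, lint_seg0 _ _ m2, ← lintegral_const_mul' _ _ ENNReal.ofReal_ne_top]
    refine setLIntegral_mono' measurableSet_Icc fun v hv => ?_
    rw [← ENNReal.ofReal_mul (by positivity)]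
    refine ENNReal.ofReal_le_ofReal ?_
    have h1 := hC v (abs_le.2 ⟨by linarith [hv.1], by linarith [hv.2]⟩)
    rw [norm_div, div_pow]
    calc ‖ρ y‖ ^ 2 / ‖cl v - m‖ ^ 2 * c v ≤ ‖ρ y‖ ^ 2 / ‖cl v - m‖ ^ 2 * C := by gcongr
      _ ≤ P * m.im / ‖cl v - m‖ ^ 2 * C := by gcongr
      _ = _ := by ring
  rw [lintegral_smul_measure, smul_eq_mul]
  refine (mul_le_mul_right (a1.trans (mul_le_mul_right (seg_poisson _ _ hm) _)) _).trans ?_
  rw [← ENNReal.ofReal_mul (by positivity), ← ENNReal.ofReal_mul (by positivity)]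
  refine le_of_eq ?_
  congr 1
  ring

end Block

end Crest.Agent.N334.T
end

-- ▼ part N334/T/Mode
section

/-!
# Row 334, engine T: estimates from the trapped mode (leaf T-Mode)
-/

set_option autoImplicit false
set_option linter.unusedSectionVars false

open MeasureTheory Complex Finset Function
open scoped ENNReal

namespace Crest.Agent.N334.T

variable {V : Type} [Fintype V] [DecidableEq V]

namespace Mde

lemma le_of_sq {a b : ℝ} (hb : 0 ≤ b) (h : a ^ 2 ≤ b ^ 2) : a ≤ b := (abs_le_of_sq_le_sq' h hb).2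

lemma cl_sub_re (η : ℝ) (z : ℂ) : cl z - η * I - z.re = -(dmp η z : ℝ) * I := by
  apply Complex.ext <;> simp [dmp]
  ring

lemma norm_sum_nbr {G : SimpleGraph V} (hd : Deg G) (x : V) {F : V → ℂ} {C : ℝ} (hC : 0 ≤ C)
    (h : ∀ n ∈ nbr G x, ‖F n‖ ≤ C) : ‖∑ n ∈ nbr G x, F n‖ ≤ 4 * C := by
  refine (norm_sum_le _ _).trans ((sum_le_card_nsmul _ _ _ h).trans ?_)
  rw [nsmul_eq_mul]
  exact mul_le_mul_of_nonneg_right (by exact_mod_cast hd x) hC

lemma resolvent_one {G : SimpleGraph V} {η : ℝ} (hη : 0 < η) {w w' : V → ℂ} {y : V}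
    (h : ∀ v, v ≠ y → w v = w' v) (p q : V) : Gr G η w p q =
      Gr G η w' p q - Gr G η w p y * (cl (w y) - cl (w' y)) * Gr G η w' y q := by
  rw [resolvent hη w w' p q, sum_eq_single y (fun v _ hv => by simp [h v hv]) (by simp)]

end Mde

open Mde

namespace Block

variable {E : Env V} {ν : Measure ℂ} {B Z : Finset V} {y : V} {u : V → ℂ} {win : V → ℝ}
  {h γ P s lam : ℝ} {l : ℕ}

section Aux

variable (hB : Block E ν B Z y u win h γ P s lam l) {x v : V}
include hB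

lemma md_P : 0 < P := by linarith [hB.big]

lemma md_h : 0 < h := (inv_pos.2 hB.md_P).trans_le hB.h0

lemma md_H : 0 < h + E.η := add_pos hB.md_h E.η0

lemma md_PH : 1 ≤ P * (h + E.η) := by
  have := mul_le_mul_of_nonneg_left hB.h0 hB.md_P.le
  rw [mul_inv_cancel₀ hB.md_P.ne'] at this
  nlinarith [mul_pos hB.md_P E.η0]

lemma md_t : P ^ 12 * s ^ 4 ≤ 1 := by
  have hP := hB.md_P
  have := mul_le_mul_of_nonneg_left hB.s1 (pow_pos hP 3).le
  rw [mul_inv_cancel₀ (by positivity)] at this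
  calc _ = (P ^ 3 * s) ^ 4 := by ring
    _ ≤ 1 := pow_le_one₀ (mul_pos (pow_pos hP 3) hB.s0).le this

/-- `P ^ k * s ^ 4 ≤ 1 / 1000` for `k ≤ 11` -/
lemma md_tk {k : ℕ} (hk : k ≤ 11) : 1000 * (P ^ k * s ^ 4) ≤ 1 := by
  have := hB.big
  calc _ ≤ P * (P ^ 11 * s ^ 4) := by gcongr; linarith
    _ = P ^ 12 * s ^ 4 := by ring
    _ ≤ 1 := hB.md_t

lemma md_cl : cl (E.yh y h) = (E.r y).re - h * I := by
  apply Complex.ext <;> simp [Env.yh, abs_of_pos hB.md_h]

lemma md_dmpy : dmp E.η (E.yh y h) = h + E.η := by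
  simp [dmp, Env.yh, abs_of_pos hB.md_h, add_comm]

lemma md_norm (c : ℂ) : ‖(h + E.η) * c‖ = (h + E.η) * ‖c‖ := by
  rw [norm_mul, ← ofReal_add, norm_real, Real.norm_of_nonneg hB.md_H.le]

lemma md_win (hx : x ∈ B.erase y) : 0 < win x := E.η0.trans_le (hB.win0 x hx).1

lemma md_sum {S : Finset V} (hS : S ⊆ B) {f : V → ℝ} {C : ℝ} (hC : 0 ≤ C)
    (hf : ∀ x ∈ S, f x ≤ C) : ∑ x ∈ S, f x ≤ P * C := by
  refine (sum_le_card_nsmul _ _ _ hf).trans ?_
  rw [nsmul_eq_mul]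
  exact mul_le_mul_of_nonneg_right (le_trans (by exact_mod_cast card_le_card hS) hB.card) hC

lemma md_val (hx : x ∈ B.erase y) (w : V → ℂ) (z : ℂ) : update (fz E.r B w) y z x = E.r x := by
  rw [update_of_ne (ne_of_mem_erase hx), fz_mem (mem_of_mem_erase hx)]

lemma md_dmp (hx : x ∈ B.erase y) :
    win x ≤ P * dmp E.η (E.r x) ∧ dmp E.η (E.r x) ≤ 2 * win x := by
  have h1 := (div_le_iff₀ hB.md_P).1 (hB.sig x hx).1
  have := mul_pos hB.md_P E.η0
  exact ⟨by rw [dmp]; linarith, by rw [dmp]; linarith [(hB.sig x hx).2, (hB.win0 x hx).1]⟩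

lemma md_chi (hx : x ∈ B.erase y) {t : ℂ} (ht : ‖t‖ ≤ 2 * win x) :
    ‖Lst E.G E.r u x + t * u x‖ ^ 2 ≤ s ^ 8 * win x := by
  refine le_trans ?_ (hB.chi x hx)
  gcongr
  exact (norm_add_le _ _).trans (by rw [norm_mul]; gcongr)

lemma md_chi' (hx : x ∈ B.erase y) (w : V → ℂ) :
    ‖Lst E.G E.r u x + (cl (fz E.r B w x) - E.η * I - (E.r x).re) * u x‖ ^ 2 ≤ s ^ 8 * win x := by
  refine hB.md_chi hx ?_
  rw [fz_mem (mem_of_mem_erase hx), cl_sub_re]
  simpa [abs_of_pos (dmp_pos E.η0 _)] using (hB.md_dmp hx).2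

lemma md_off (hx : x ∈ B.erase y) (hv : v ∈ B.erase y) (w : V → ℂ) :
    win x * win v * ‖E.GG y h (fz E.r B w) x v‖ ^ 2 ≤ P ^ 2 := by
  have h1 := off_le (G := E.G) E.η0 (update (fz E.r B w) y (E.yh y h)) x v
  rw [hB.md_val hx, hB.md_val hv] at h1
  have := hB.md_P
  have := hB.md_win hv
  have := dmp_pos E.η0 (E.r x)
  calc _ ≤ (P * dmp E.η (E.r x)) * (P * dmp E.η (E.r v)) * ‖E.GG y h (fz E.r B w) x v‖ ^ 2 := by
        gcongr
        exacts [(hB.md_dmp hx).1, (hB.md_dmp hv).1]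
    _ = P ^ 2 * (dmp E.η (E.r x) * dmp E.η (E.r v) * ‖E.GG y h (fz E.r B w) x v‖ ^ 2) := by ring
    _ ≤ _ := mul_le_of_le_one_right (by positivity) h1

end Aux

/-- `apply_vec` for `f = u` and the configuration `update w y yh`; off `B` both `u` and `Lst u`
vanish (`usupp`, `inner`), at `y` the defect is `-i (h + η)` -/
lemma mode_eq (hB : Block E ν B Z y u win h γ P s lam l) (w : V → ℂ) (p : V) :
    u p + I * (h + E.η) * E.GG y h w p y = ∑ x ∈ B.erase y,
      E.GG y h w p x * (Lst E.G E.r u x + (cl (w x) - E.η * I - (E.r x).re) * u x) := by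
  have h1 := apply_vec (G := E.G) E.η0 (update w y (E.yh y h)) u p
  have h2 := hB.chiy
  rw [← sum_subset (subset_univ B) fun v _ hv => ?_, ← add_sum_erase _ _ hB.yB, update_self,
    hB.md_cl, hB.uy] at h1
  · rw [Lst, hB.uy] at h2
    rw [sum_congr rfl (g := fun x => E.GG y h w p x *
      ((cl (update w y (E.yh y h) x) - E.η * I) * u x + ∑ n ∈ nbr E.G x, u n)) fun x hx => by
        rw [update_of_ne (ne_of_mem_erase hx), Lst]; ring]
    unfold Env.GG
    linear_combination h1 + Gr E.G E.η (update w y (E.yh y h)) p y * h2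
  · rw [hB.usupp v fun h => hv (mem_sdiff.1 h).1, sum_eq_zero fun n hn => hB.usupp n fun h =>
      hv (hB.inner n h (nbr_symm.1 hn))]
    simp

/-- `mode_eq` at `y`, Cauchy-Schwarz, `lm_site` and `site_GG` with `C = s⁸ win x` -/
lemma ee_sq (hB : Block E ν B Z y u win h γ P s lam l) (w : V → ℂ) :
    lmarginal E.μ (B.erase y) (fun w => ENNReal.ofReal (‖E.ee y h w‖ ^ 2)) w ≤
      ENNReal.ofReal (P ^ 5 * s ^ 8) := by
  have hP := hB.big
  have hs := hB.s0
  let c : V → ℂ → ℝ := fun x z => P * ‖Lst E.G E.r u x + (cl z - E.η * I - (E.r x).re) * u x‖ ^ 2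
  have hc : ∀ x, Measurable (c x) := fun x => by unfold c; fun_prop
  have hm : ∀ x, Measurable fun w : V → ℂ =>
      ENNReal.ofReal (‖E.GG y h w y x‖ ^ 2 * c x (w x)) := fun x => by fun_prop
  calc _ ≤ lmarginal E.μ (B.erase y) (fun w => ∑ x ∈ B.erase y,
        ENNReal.ofReal (‖E.GG y h w y x‖ ^ 2 * c x (w x))) w := by
        refine lm_mono _ _ (fun w => ?_) w
        rw [← ENNReal.ofReal_sum_of_nonneg fun x _ => by positivity, Env.ee, ← hB.uy, hB.mode_eq]
        refine ENNReal.ofReal_le_ofReal ((pow_le_pow_left₀ (norm_nonneg _) (norm_sum_le _ _) 2).trans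
          (sq_sum_le_card_mul_sum_sq.trans ?_))
        rw [mul_sum]
        refine sum_le_sum fun x _ => ?_
        have : ((B.erase y).card : ℝ) ≤ P := le_trans (by exact_mod_cast card_erase_le) hB.card
        rw [norm_mul, mul_pow, mul_left_comm]
        unfold c
        gcongr
    _ ≤ ∑ x ∈ B.erase y, ENNReal.ofReal (4 * P ^ 3 * s ^ 8) := by
        rw [lm_sum _ _ _ fun x _ => hm x]
        refine sum_le_sum fun x hx => ?_
        have hw := hB.md_win hx
        rw [lm_site _ hx (hm x), ← lm_const E.μ (B.erase y) (ENNReal.ofReal _) w]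
        refine lm_mono _ _ (fun w => ?_) w
        simp only [update_self]
        refine (hB.site_GG hx w (hc x) (C := P * (s ^ 8 * win x)) (by positivity)
          fun v hv => ?_).trans_eq (by congr 1; field_simp)
        refine mul_le_mul_of_nonneg_left (hB.md_chi hx ?_) (by positivity)
        rw [cl_ofReal, sub_right_comm, ← ofReal_sub]
        refine (norm_sub_le _ _).trans ?_
        rw [norm_mul, norm_real, norm_real, norm_I, mul_one, Real.norm_of_nonneg E.η0.le]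
        linarith [(hB.win0 x hx).1, Real.norm_eq_abs (v - (E.r x).re)]
    _ ≤ _ := by
        rw [← ENNReal.ofReal_sum_of_nonneg fun x _ => by positivity]
        refine ENNReal.ofReal_le_ofReal ((hB.md_sum (erase_subset _ _) (by positivity)
          fun _ _ => le_rfl).trans ?_)
        calc _ = 4 * (P ^ 4 * s ^ 8) := by ring
          _ ≤ P * (P ^ 4 * s ^ 8) := by gcongr; linarith
          _ = _ := by ring

/-- at the reference the defect `χ_v` has `|χ_v|² ≤ s⁸ win v` and `|GG x v|² ≤ P² / (win x win v)`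
(`off_le`), `|u x|² ≤ s⁸ / (4 win x)` -/
lemma amp (hB : Block E ν B Z y u win h γ P s lam l) (w : V → ℂ) {x : V} (hx : x ∈ B.erase y) :
    win x * ((h + E.η) * ‖E.GG y h (fz E.r B w) x y‖) ^ 2 ≤ 4 * P ^ 4 * s ^ 8 := by
  have hP := hB.big
  have hs := hB.s0
  have hw := hB.md_win hx
  have hH := hB.md_H
  obtain ⟨q, hq, hq2⟩ : ∃ q : ℝ, 0 ≤ q ∧ q ^ 2 = win x := ⟨_, Real.sqrt_nonneg _, Real.sq_sqrt hw.le⟩
  have hu : q * ‖u x‖ ≤ s ^ 4 := le_of_sq (by positivity) (by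
    have : (win x * ‖u x‖) ^ 2 ≤ s ^ 8 * win x := le_trans (by
      gcongr
      linarith [norm_nonneg (Lst E.G E.r u x), mul_nonneg hw.le (norm_nonneg (u x))]) (hB.chi x hx)
    rw [mul_pow, hq2]
    exact le_of_mul_le_mul_left (by linarith) hw)
  have h1 := eq_sub_of_add_eq' (hB.mode_eq (fz E.r B w) x)
  have h2 : q * ((h + E.η) * ‖E.GG y h (fz E.r B w) x y‖) ≤ P * (P * s ^ 4) + s ^ 4 := by
    rw [← hB.md_norm, ← one_mul ‖_‖, ← norm_I, ← norm_mul, ← mul_assoc I, h1]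
    refine (mul_le_mul_of_nonneg_left ((norm_sub_le _ _).trans
      (add_le_add (norm_sum_le _ _) le_rfl)) hq).trans ?_
    rw [mul_add, mul_sum]
    refine add_le_add (hB.md_sum (erase_subset _ _) (by positivity) fun v hv =>
      le_of_sq (by positivity) ?_) hu
    have h3 := mul_le_mul_of_nonneg_left (hB.md_chi' hv w)
      (by positivity : 0 ≤ win x * ‖E.GG y h (fz E.r B w) x v‖ ^ 2)
    have h4 := mul_le_mul_of_nonneg_left (hB.md_off hx hv w) (by positivity : 0 ≤ s ^ 8)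
    rw [norm_mul, mul_pow, mul_pow, hq2]
    linarith
  rw [← hq2, ← mul_pow]
  calc _ ≤ (P * (P * s ^ 4) + P * (P * s ^ 4)) ^ 2 := by
        gcongr
        refine h2.trans (add_le_add le_rfl ?_)
        rw [← mul_assoc]
        exact le_mul_of_one_le_left (by positivity) (by nlinarith)
    _ = _ := by ring

/-- `e = ∑ GG y x χ_x` and `H |GG x y| |χ_x| ≤ 2 P² s⁸` by `amp` -/
lemma ee_ref (hB : Block E ν B Z y u win h γ P s lam l) (w : V → ℂ) :
    (h + E.η) * ‖E.ee y h (fz E.r B w)‖ ≤ 2 * P ^ 3 * s ^ 8 := by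
  have hP := hB.md_P
  have hs := hB.s0
  have hH := hB.md_H
  rw [Env.ee, ← hB.uy, hB.mode_eq]
  refine (mul_le_mul_of_nonneg_left (norm_sum_le _ _) hH.le).trans ?_
  rw [mul_sum]
  refine (hB.md_sum (erase_subset _ _) (C := 2 * P ^ 2 * s ^ 8) (by positivity) fun x hx =>
    le_of_sq (by positivity) ?_).trans_eq (by ring)
  have h3 := mul_le_mul_of_nonneg_left (hB.md_chi' hx w)
    (by positivity : 0 ≤ ((h + E.η) * ‖E.GG y h (fz E.r B w) x y‖) ^ 2)
  have h4 := mul_le_mul_of_nonneg_left (hB.amp w hx) (by positivity : 0 ≤ s ^ 8)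
  rw [norm_mul, ← mul_assoc, mul_pow, Env.GG, Gr_symm, ← Env.GG]
  linarith

lemma md_small (hB : Block E ν B Z y u win h γ P s lam l) (w : V → ℂ) {x : V}
    (hx : x ∈ B.erase y) : win x * ‖(h + E.η) * E.GG y h (fz E.r B w) x y‖ ≤ P ^ 3 * s ^ 4 ∧
      (P⁻¹ ≤ win x → ‖(h + E.η) * E.GG y h (fz E.r B w) x y‖ ≤ P ^ 3 * s ^ 4) := by
  have hP := hB.big
  have hs := hB.s0
  have h1 := hB.amp w hx
  have hw := hB.md_win hx
  rw [← hB.md_norm] at h1
  generalize ‖(h + E.η) * E.GG y h (fz E.r B w) x y‖ = a at h1 ⊢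
  have h2 : P * (4 * P ^ 4 * s ^ 8) ≤ (P ^ 3 * s ^ 4) ^ 2 :=
    calc _ = 4 * (P ^ 5 * s ^ 8) := by ring
      _ ≤ P * (P ^ 5 * s ^ 8) := by gcongr; linarith
      _ = _ := by ring
  refine ⟨le_of_sq (by positivity) (le_trans ?_ h2), fun h3 => le_of_sq (by positivity) (le_trans ?_ h2)⟩
  · rw [mul_pow, sq, mul_assoc]
    gcongr
    exact (hB.win0 x hx).2
  · refine le_trans ?_ (mul_le_mul_of_nonneg_left h1 hB.md_P.le)
    rw [← mul_assoc]
    exact le_mul_of_one_le_left (by positivity) ((inv_le_iff_one_le_mul₀' hB.md_P).1 h3)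

lemma md_Z (hB : Block E ν B Z y u win h γ P s lam l) {z : V} (hz : z ∈ Z) : z ∈ B.erase y :=
  mem_erase.2 ⟨fun e => hB.yZ (e ▸ hz), hB.ZB hz⟩

lemma md_nZ (hB : Block E ν B Z y u win h γ P s lam l) {z x : V} (hz : z ∈ Z) (hx : x ∈ B)
    (hn : x ∈ nbr E.G z) : x ∈ B.erase y :=
  mem_erase.2 ⟨fun e => hB.yfar z hz (nbr_symm.1 (e ▸ hn)), hx⟩

/-- the truncated column is an almost null vector -/
lemma md_null (hB : Block E ν B Z y u win h γ P s lam l) (w : V → ℂ) {x : V} (hx : x ∈ B) :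
    ‖Lst E.G E.r (fun x => if x ∈ B \ Z then (h + E.η) * E.GG y h (fz E.r B w) x y else 0) x‖ ≤
      P ^ 4 * s ^ 4 := by
  have hP := hB.big
  have hs := hB.s0
  have h0 : 0 ≤ P ^ 3 * s ^ 4 := by positivity
  refine le_trans (b := 6 * (P ^ 3 * s ^ 4)) ?_ (by nlinarith)
  have hr := row (G := E.G) E.η0 (update (fz E.r B w) y (E.yh y h)) x y
  rw [← Env.GG] at hr
  by_cases hZ : x ∈ Z
  · rw [Lst, if_neg (by simp [hZ]), mul_zero, zero_add]
    refine (norm_sum_nbr E.deg x h0 fun n hn => ?_).trans (by linarith)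
    split_ifs with h1
    · have h2 := hB.md_nZ hZ (mem_sdiff.1 h1).1 hn
      exact (hB.md_small w h2).2 (hB.wide x hZ n h2 (.inr hn))
    · simpa using h0
  have hx' := mem_sdiff.2 ⟨hx, hZ⟩
  rw [Lst, if_pos hx']
  rcases eq_or_ne x y with rfl | hy
  · rw [update_self, hB.md_cl, if_pos rfl] at hr
    rw [sum_congr rfl fun n hn => if_pos (mem_sdiff.2 ⟨hB.inner x hx' hn,
      fun h => hB.yfar n h hn⟩), ← mul_sum]
    have h1 := hB.ee_ref w
    rw [← hB.md_norm] at h1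
    refine le_trans (le_of_eq (congrArg _ ?_)) (h1.trans ?_)
    · rw [Env.ee]; linear_combination (h + E.η) * hr
    · have := hB.md_tk (k := 0) (by norm_num)
      nlinarith
  have hx2 := mem_erase.2 ⟨hy, hx⟩
  rw [hB.md_val hx2, if_neg hy] at hr
  have h1 := norm_sum_nbr E.deg x h0 (F := fun n => (if n ∈ B \ Z then
      (h + E.η) * E.GG y h (fz E.r B w) n y else 0) - (h + E.η) * E.GG y h (fz E.r B w) n y)
    fun n hn => by
      split_ifs with h1
      · simpa using h0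
      · have h2 : n ∈ Z := by simpa [hB.inner x hx' hn] using h1
        rw [zero_sub, norm_neg]
        exact (hB.md_small w (hB.md_Z h2)).2 (hB.wide n h2 n (hB.md_Z h2) (.inl rfl))
  rw [sum_sub_distrib, ← mul_sum] at h1
  have h2 : ‖(dmp E.η (E.r x) : ℂ) * I * ((h + E.η) * E.GG y h (fz E.r B w) x y)‖ ≤
      2 * (P ^ 3 * s ^ 4) := by
    rw [norm_mul, norm_mul, norm_I, mul_one, norm_real, Real.norm_of_nonneg (dmp_pos E.η0 _).le]
    linarith [(hB.md_small w hx2).1, mul_le_mul_of_nonneg_right (hB.md_dmp hx2).2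
      (norm_nonneg ((h + E.η) * E.GG y h (fz E.r B w) x y))]
  refine le_trans (le_of_eq (congrArg _ ?_)) ((norm_add_le _ _).trans
    ((add_le_add h2 h1).trans_eq (by ring)))
  linear_combination (h + E.η) * hr -
    (h + E.η) * E.GG y h (fz E.r B w) x y * cl_sub_re E.η (E.r x)

/-- `obs` for `f = 1_{B \ Z} H GG(·, y)` with `g = P⁴ s⁴` (`row`, `amp`, `wide`, `yfar`, `ee_ref`;
`(Lst f) y = H e`); `|f y| ≥ 1 - |e|`, so `|c| ≥ 3/4` and `|f x₀| ≥ |u x₀| / 2`.  Then the cavity at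
`y`: the quotient of the two Green functions is `D / (a - σ - i (γ + τ + η))`, of modulus
`≥ H / (3 τ)`, `τ = P⁴ s⁸`. -/
lemma obs_ge (hB : Block E ν B Z y u win h γ P s lam l) {x₀ : V} (hx : x₀ ∈ B \ Z)
    (hu : P ^ 6 * s ^ 4 ≤ ‖u x₀‖) (w : V → ℂ) :
    P / s ^ 4 ≤ ‖Gr E.G E.η (fz E.r B w) y x₀‖ := by
  have hP := hB.big
  have hs := hB.s0
  have hH := hB.md_H
  obtain ⟨c, hc⟩ := hB.obs _ _ (fun x hx => if_neg hx) fun x hx => hB.md_null w hx
  have h1 := hc y (mem_sdiff.2 ⟨hB.yB, hB.yZ⟩)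
  have h2 := hc x₀ hx
  simp only [if_pos hx, if_pos (mem_sdiff.2 ⟨hB.yB, hB.yZ⟩), hB.uy, mul_one] at h1 h2
  have h3 := resolvent_one (G := E.G) E.η0 (w := fz E.r B w) (y := y)
    (w' := update (fz E.r B w) y (E.yh y h)) (fun v hv => (update_of_ne hv _ _).symm) x₀ y
  have h4 := diag_le (G := E.G) E.η0 (update (fz E.r B w) y (E.yh y h)) y
  have h5 := hB.ee_ref w
  have h6 := cl_sub_re E.η (E.r y)
  rw [update_self, hB.md_dmpy, ← Env.GG, ← hB.md_norm] at h4
  rw [update_self, hB.md_cl, fz_mem hB.yB, ← Env.GG, Gr_symm] at h3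
  have he : ‖E.ee y h (fz E.r B w)‖ ≤ 1 / 8 := by
    have := hB.md_tk (k := 4) (by norm_num)
    have := hB.md_tk (k := 0) (by norm_num)
    have := mul_le_mul_of_nonneg_left h5 hB.md_P.le
    have := mul_le_mul_of_nonneg_right hB.md_PH (norm_nonneg (E.ee y h (fz E.r B w)))
    nlinarith [mul_pos (pow_pos hB.md_P 4) (pow_pos hs 4), pow_pos hs 4]
  have h7 : (h + E.η) * E.GG y h (fz E.r B w) x₀ y = Gr E.G E.η (fz E.r B w) y x₀ *
      ((h + E.η) * E.ee y h (fz E.r B w) -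
        (dmp E.η (E.r y) : ℂ) * I * ((h + E.η) * E.GG y h (fz E.r B w) y y)) := by
    rw [Env.ee]
    linear_combination -(h + E.η) * h3 +
      (h + E.η) * Gr E.G E.η (fz E.r B w) y x₀ * E.GG y h (fz E.r B w) y y * h6
  have h8 : 1 ≤ ‖E.ee y h (fz E.r B w)‖ + ‖(h + E.η) * E.GG y h (fz E.r B w) y y‖ := by
    have := norm_sub_le (E.ee y h (fz E.r B w)) (I * ((h + E.η) * E.GG y h (fz E.r B w) y y))
    rwa [norm_mul I, norm_I, one_mul, Env.ee, mul_assoc, add_sub_cancel_right, norm_one,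
      ← mul_assoc, ← Env.ee] at this
  have h9 : ‖(h + E.η) * E.GG y h (fz E.r B w) x₀ y‖ ≤
      ‖Gr E.G E.η (fz E.r B w) y x₀‖ * (2 * P ^ 4 * s ^ 8) := by
    rw [h7, norm_mul]
    gcongr
    refine (norm_sub_le _ _).trans ?_
    rw [hB.md_norm, norm_mul, norm_mul, norm_I, mul_one, norm_real,
      Real.norm_of_nonneg (dmp_pos E.η0 _).le]
    have h10 := mul_le_of_le_one_right (dmp_pos E.η0 (E.r y)).le h4
    have h11 : dmp E.η (E.r y) ≤ s ^ 8 + P ^ 4 * s ^ 8 := by rw [dmp, hB.ry]; linarith [hB.γ1]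
    have h12 : 1 * s ^ 8 ≤ P ^ 3 * s ^ 8 := by gcongr; exact one_le_pow₀ (by linarith)
    have h13 : 3 * (P ^ 3 * s ^ 8) ≤ P * (P ^ 3 * s ^ 8) := by gcongr; linarith
    linarith
  generalize (h + E.η) * E.GG y h (fz E.r B w) y y = a at h1 h8
  generalize (h + E.η) * E.GG y h (fz E.r B w) x₀ y = b at h2 h9
  have h14 : 3 / 4 ≤ ‖c‖ := by
    linarith [norm_sub_norm_le a c, hB.md_tk (k := 5) (by norm_num)]
  have h15 : 3 / 4 * (P ^ 6 * s ^ 4) ≤ ‖b‖ + P * (P ^ 4 * s ^ 4) := by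
    have := norm_sub_norm_le (c * u x₀) b
    rw [norm_sub_rev, norm_mul] at this
    linarith [mul_le_mul h14 hu (by positivity) (norm_nonneg _)]
  have h16 : 4 * (P ^ 5 * s ^ 4) ≤ P * (P ^ 5 * s ^ 4) := by gcongr; linarith
  rw [div_le_iff₀ (by positivity)]
  refine le_of_mul_le_mul_left (a := 2 * P ^ 4 * s ^ 4) ?_ (by positivity)
  linarith

/-- `flux` for `B \ Z` (absorb: `|ψ_x| |ψ_z| ≤ σ_x/8 |ψ_x|² + 2/σ_x |ψ_z|²`, `σ_x ≥ P⁻²` next to `Z`)
gives `∑_{B \ Z} dmp |ψ|² ≤ 16 P² ∑_Z |ψ|²` for `ψ = GG(·, b)`; then `resolvent`: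
`ψ_z = ψ'_z - GG z y t ψ'_y`, `|t| ≤ H`, `|GG z y t| ≤ P³ s⁴` by `amp`. -/
lemma flux_le (hB : Block E ν B Z y u win h γ P s lam l) {b : V} (hb : b ∉ B) (w : V → ℂ) :
    ‖E.GG y h (fz E.r B w) y b‖ ^ 2 + ∑ x ∈ B.erase y, win x * ‖E.GG y h (fz E.r B w) x b‖ ^ 2 ≤
      P ^ 12 * (∑ z ∈ Z, ‖Gr E.G E.η (fz E.r B w) z b‖ ^ 2 +
        s ^ 8 * ‖Gr E.G E.η (fz E.r B w) y b‖ ^ 2) := by
  have hP := hB.big
  have hs := hB.s0
  have hH := hB.md_H
  have h1 := flux (G := E.G) E.η0 (update (fz E.r B w) y (E.yh y h)) (B := B \ Z) (b := b)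
    fun h => hb (mem_sdiff.1 h).1
  have h2 := fun z => resolvent_one (G := E.G) E.η0 (w := update (fz E.r B w) y (E.yh y h))
    (y := y) (w' := fz E.r B w) (fun v hv => update_of_ne hv _ _) z b
  rw [← Env.GG] at h1 h2
  have hd := fun x => (dmp_pos E.η0 (update (fz E.r B w) y (E.yh y h) x)).le
  set ψ := fun x => ‖E.GG y h (fz E.r B w) x b‖ with hψ
  have hS : 0 ≤ ∑ z ∈ Z, ψ z ^ 2 := by positivity
  have h3 : ∑ x ∈ B \ Z, ∑ n ∈ nbr E.G x \ (B \ Z), ψ x * ψ n ≤ ∑ x ∈ B \ Z,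
      (dmp E.η (update (fz E.r B w) y (E.yh y h) x) * ψ x ^ 2 / 2 + 2 * P ^ 2 * ∑ z ∈ Z, ψ z ^ 2) := by
    refine sum_le_sum fun x hx => ?_
    have hZ : nbr E.G x \ (B \ Z) ⊆ Z := fun n hn => by
      have := mem_sdiff.1 hn
      simpa [hB.inner x hx this.1] using this.2
    calc _ ≤ ∑ n ∈ nbr E.G x \ (B \ Z),
          (dmp E.η (update (fz E.r B w) y (E.yh y h) x) * ψ x ^ 2 / 8 + 2 * P ^ 2 * ψ n ^ 2) := by
          refine sum_le_sum fun n hn => ?_
          have hn' := nbr_symm.1 (mem_sdiff.1 hn).1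
          have h4 := hB.md_nZ (hZ hn) (mem_sdiff.1 hx).1 hn'
          have h5 := (inv_le_iff_one_le_mul₀' hB.md_P).1 (hB.wide n (hZ hn) x h4 (.inr hn'))
          have h6 := mul_le_mul_of_nonneg_left (hB.md_dmp h4).1 hB.md_P.le
          have h7 := mul_le_mul_of_nonneg_right (h5.trans h6) (sq_nonneg (ψ x))
          rw [hB.md_val h4]
          refine le_of_mul_le_mul_left (a := 8 * P ^ 2) ?_ (by positivity)
          linarith [sq_nonneg (ψ x - 4 * P ^ 2 * ψ n)]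
      _ ≤ _ := by
          rw [sum_add_distrib, sum_const, nsmul_eq_mul, ← mul_sum]
          have h4 : ((nbr E.G x \ (B \ Z)).card : ℝ) ≤ 4 := by
            exact_mod_cast (card_le_card sdiff_subset).trans (E.deg x)
          have h5 := mul_le_mul_of_nonneg_right h4 (mul_nonneg (hd x) (sq_nonneg (ψ x)))
          have h6 := sum_le_sum_of_subset_of_nonneg hZ fun n _ _ => sq_nonneg (ψ n)
          have h7 := mul_le_mul_of_nonneg_left h6 (by positivity : 0 ≤ 2 * P ^ 2)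
          linarith
  rw [sum_add_distrib, ← sum_div] at h3
  have h4 := hB.md_sum (sdiff_subset (t := Z)) (f := fun _ => 2 * P ^ 2 * ∑ z ∈ Z, ψ z ^ 2)
    (by positivity) fun _ _ => le_rfl
  have h5 : ψ y ^ 2 + ∑ x ∈ B.erase y, win x * ψ x ^ 2 ≤ P * (∑ x ∈ B \ Z,
      dmp E.η (update (fz E.r B w) y (E.yh y h) x) * ψ x ^ 2 + ∑ z ∈ Z, ψ z ^ 2) := by
    rw [← sum_ite_mem_eq (B \ Z), ← sum_ite_mem_eq Z, ← sum_add_distrib,
      ← sum_subset (subset_univ B) fun x _ hx => by simp [hx, mt (@hB.ZB x) hx],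
      ← add_sum_erase _ _ hB.yB, mul_add, mul_sum]
    refine add_le_add ?_ (sum_le_sum fun x hx => ?_)
    · rw [if_pos (mem_sdiff.2 ⟨hB.yB, hB.yZ⟩), if_neg hB.yZ, update_self, hB.md_dmpy]
      linarith [mul_le_mul_of_nonneg_right hB.md_PH (sq_nonneg (ψ y))]
    · by_cases hZ : x ∈ Z
      · rw [if_neg (by simp [hZ]), if_pos hZ, zero_add]
        exact mul_le_mul_of_nonneg_right (hB.win0 x hx).2 (sq_nonneg _)
      · rw [if_pos (mem_sdiff.2 ⟨mem_of_mem_erase hx, hZ⟩), if_neg hZ, hB.md_val hx]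
        linarith [mul_le_mul_of_nonneg_right (hB.md_dmp hx).1 (sq_nonneg (ψ x))]
  have ht : ‖cl (E.yh y h) - cl (E.r y)‖ ≤ h + E.η := by
    rw [hB.md_cl, show ((E.r y).re : ℂ) - h * I - cl (E.r y) = (|(E.r y).im| - h : ℝ) * I by
      apply Complex.ext <;> simp; ring, norm_mul, norm_I, mul_one, norm_real, Real.norm_eq_abs,
      hB.ry, abs_le]
    have h6 := hB.md_tk (k := 0) (by norm_num)
    have h7 := hB.md_tk (k := 1) (by norm_num)
    have h8 := hB.md_tk (k := 4) (by norm_num)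
    have h9 : s ^ 8 + P ^ 4 * s ^ 8 ≤ h + E.η := by
      refine le_of_mul_le_mul_left (le_trans ?_ hB.md_PH) hB.md_P
      nlinarith [mul_pos (pow_pos hB.md_P 4) (pow_pos hs 4), pow_pos hs 4,
        mul_pos (pow_pos hB.md_P 1) (pow_pos hs 4)]
    constructor <;> linarith [hB.γ0, hB.γ1, E.η0, hB.md_h, mul_pos (pow_pos hB.md_P 4) (pow_pos hs 8)]
  have h6 : ∑ z ∈ Z, ψ z ^ 2 ≤ 2 * ∑ z ∈ Z, ‖Gr E.G E.η (fz E.r B w) z b‖ ^ 2 +
      P * (2 * (P ^ 3 * s ^ 4 * ‖Gr E.G E.η (fz E.r B w) y b‖) ^ 2) := by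
    refine le_trans (sum_le_sum fun z hz => ?_) ((sum_add_distrib ..).trans_le (add_le_add
      (mul_sum ..).symm.le (hB.md_sum hB.ZB (by positivity) fun _ _ => le_rfl)))
    have h7 := (hB.md_small w (hB.md_Z hz)).2 (hB.wide z hz z (hB.md_Z hz) (.inl rfl))
    have h8 : ψ z ≤ ‖Gr E.G E.η (fz E.r B w) z b‖ +
        P ^ 3 * s ^ 4 * ‖Gr E.G E.η (fz E.r B w) y b‖ := by
      rw [hψ]
      simp only
      rw [h2 z, update_self, fz_mem hB.yB]
      refine (norm_sub_le _ _).trans ?_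
      rw [norm_mul, norm_mul]
      rw [hB.md_norm, mul_comm] at h7
      exact add_le_add le_rfl (mul_le_mul_of_nonneg_right
        ((mul_le_mul_of_nonneg_left ht (norm_nonneg _)).trans h7) (norm_nonneg _))
    exact (pow_le_pow_left₀ (norm_nonneg _) h8 2).trans (add_sq_le.trans_eq (by ring))
  have hA : 0 ≤ ∑ z ∈ Z, ‖Gr E.G E.η (fz E.r B w) z b‖ ^ 2 := by positivity
  generalize ∑ z ∈ Z, ‖Gr E.G E.η (fz E.r B w) z b‖ ^ 2 = A at h6 hA ⊢
  generalize ‖Gr E.G E.η (fz E.r B w) y b‖ = a at h6 ⊢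
  have p3 : 1 ≤ P ^ 3 := one_le_pow₀ (by linarith)
  have p7 : 1 ≤ P ^ 7 := one_le_pow₀ (by linarith)
  calc _ ≤ P * (4 * P ^ 3 * ∑ z ∈ Z, ψ z ^ 2 + P ^ 3 * ∑ z ∈ Z, ψ z ^ 2) := by
        refine h5.trans (mul_le_mul_of_nonneg_left (add_le_add ?_ (le_mul_of_one_le_left hS p3))
          hB.md_P.le)
        linarith
    _ = 5 * P ^ 4 * ∑ z ∈ Z, ψ z ^ 2 := by ring
    _ ≤ 5 * P ^ 4 * (2 * (P ^ 7 * A) + P * (2 * (P ^ 3 * s ^ 4 * a) ^ 2)) := by
        gcongr
        linarith [le_mul_of_one_le_left hA p7]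
    _ = 10 * (P ^ 11 * (A + s ^ 8 * a ^ 2)) := by ring
    _ ≤ P * (P ^ 11 * (A + s ^ 8 * a ^ 2)) := by gcongr; linarith
    _ = _ := by ring

end Block

end Crest.Agent.N334.T
end

-- ▼ part N334/T/BP1
section

/-!
# Row 334, engine T: pieces of the bad phase bound (helper52)
-/

set_option autoImplicit false
set_option linter.unusedSectionVars false

open MeasureTheory Complex Finset Function
open scoped ENNReal

namespace Crest.Agent.N334.T

variable {V : Type} [Fintype V] [DecidableEq V]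

namespace BP

variable {E : Env V} {ν : Measure ℂ} {B Z : Finset V} {y : V} {u : V → ℂ} {win : V → ℝ}
  {h γ P s lam : ℝ} {l : ℕ} {W : (V → ℂ) → ℝ≥0∞} {b : V} {k : ℝ}

/-- the mass of the bad part of the slice at `x` -/
noncomputable def mb (E : Env V) (y : V) (h s : ℝ) (x : V) (w : V → ℂ) : ℝ≥0∞ :=
  E.μ x {z | s ^ 2 < ‖E.ee y h (update w x z)‖}

/-- the intensity seen by the matched absorber -/
noncomputable def g2 (E : Env V) (y : V) (h : ℝ) (b : V) (w : V → ℂ) : ℝ≥0∞ :=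
  ENNReal.ofReal (‖E.GG y h w y b‖ ^ 2)

@[fun_prop] lemma measurable_g2 : Measurable (g2 E y h b) := by unfold g2; fun_prop

lemma ms_lt (t : ℝ) : MeasurableSet {w | t < ‖E.ee y h w‖} :=
  measurableSet_lt measurable_const (by fun_prop)

lemma mb_eq (x : V) (w : V → ℂ) : mb E y h s x w =
    ∫⁻ z, {w | s ^ 2 < ‖E.ee y h w‖}.indicator (fun _ => (1 : ℝ≥0∞)) (update w x z) ∂E.μ x := by
  have hm : MeasurableSet {z | s ^ 2 < ‖E.ee y h (update w x z)‖} :=
    (measurable_update w (a := x)) (ms_lt (E := E) (y := y) (h := h) (s ^ 2))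
  rw [mb, ← lintegral_indicator_one hm]
  rfl

lemma measurable_mb (x : V) : Measurable (mb E y h s x) := by
  rw [funext (mb_eq x)]
  exact measurable_site _ x (measurable_const.indicator (ms_lt _))

lemma mb_update (x : V) (w : V → ℂ) (z : ℂ) : mb E y h s x (update w x z) = mb E y h s x w := by
  simp only [mb, update_idem]

lemma back (hW : Temp W b k) (w : V → ℂ) {x : V} (hx : x ≠ b) (z : ℂ) :
    W w ≤ ENNReal.ofReal (Real.exp k) * W (update w x z) := by
  have := hW.2.2.2 (update w x z) x (w x) hx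
  rwa [update_idem, update_eq_self] at this

lemma exp_le (hW : Temp W b k) : ENNReal.ofReal (Real.exp k) ≤ ENNReal.ofReal 3 :=
  ENNReal.ofReal_le_ofReal ((Real.exp_le_exp.2 hW.2.2.1).trans
    (Real.exp_one_lt_d9.le.trans (by norm_num)))

lemma s_le (hB : Block E ν B Z y u win h γ P s lam l) : s ≤ 1 :=
  hB.s1.trans (inv_le_one_of_one_le₀ (one_le_pow₀ (by linarith [hB.big])))

/-- the weighted average of `FF` -/
lemma wff [IsProbabilityMeasure ν] (hW : Temp W b k) (hy : y ≠ b) :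
    ∫⁻ w, W w * E.FF y ν b w ∂Measure.pi (update E.μ y ν) ≤
      ENNReal.ofReal 3 * Rq E.G E.η (update E.μ y ν) W y b := by
  have hm : Measurable fun w => W w * ENNReal.ofReal (‖Gr E.G E.η w y b‖ ^ 2) :=
    hW.1.mul (by fun_prop)
  rw [Rq, ← lint_site (update E.μ y ν) y hm, update_self,
    ← lintegral_const_mul _ (measurable_site ν y hm)]
  refine lintegral_mono fun w => ?_
  have hm1 : Measurable fun z => ENNReal.ofReal (‖Gr E.G E.η (update w y z) y b‖ ^ 2) :=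
    (show Measurable fun w => ENNReal.ofReal (‖Gr E.G E.η w y b‖ ^ 2) by fun_prop).comp
      (measurable_update w)
  have hm2 : Measurable fun z => W (update w y z) *
      ENNReal.ofReal (‖Gr E.G E.η (update w y z) y b‖ ^ 2) := hm.comp (measurable_update w)
  simp only [Env.FF]
  rw [← lintegral_const_mul _ hm1, ← lintegral_const_mul _ hm2]
  refine lintegral_mono fun z => ?_
  simp only [← mul_assoc]
  exact mul_le_mul_left ((back hW w hy z).trans (mul_le_mul_left (exp_le hW) _)) _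

/-- the good phase -/
lemma part1 (hB : Block E ν B Z y u win h γ P s lam l) (b : V) (w : V → ℂ)
    (he : ‖E.ee y h w‖ ≤ s) : g2 E y h b w ≤ ENNReal.ofReal (8 * P ^ 2 * s) * E.FF y ν b w := by
  have hP : 0 < P := by linarith [hB.big]
  have h0 := E.ee_re_nonneg y h ((inv_pos.2 hP).trans_le hB.h0) w
  have h1 : (E.ee y h w).re ≤ s := (re_le_norm _).trans he
  have hs := hB.s0
  have hs1 := s_le hB
  have h2 : ‖E.GG y h w y b‖ ^ 2 ≤ 2 * s * (‖E.GG y h w y b‖ ^ 2 / (s ^ 2 + (E.ee y h w).re)) := by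
    rw [← mul_div_assoc, le_div_iff₀ (by positivity), mul_comm]
    exact mul_le_mul_of_nonneg_right (by nlinarith) (sq_nonneg _)
  refine (ENNReal.ofReal_le_ofReal h2).trans ?_
  rw [ENNReal.ofReal_mul (by positivity), show 8 * P ^ 2 * s = 2 * s * (4 * P ^ 2) by ring,
    ENNReal.ofReal_mul (p := 2 * s) (by positivity), mul_assoc]
  exact mul_le_mul_right (hB.good b w he) _

/-- a bad point on a good slice -/
lemma part2 (hB : Block E ν B Z y u win h γ P s lam l) [IsProbabilityMeasure ν] (hW : Temp W b k)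
    (hb : b ∉ B) {x : V} (hx : x ∈ B.erase y) :
    ∫⁻ w, ({w | s < ‖E.ee y h w‖} ∩ {w | mb E y h s x w ≤ ENNReal.ofReal (10 * P)⁻¹}).indicator
        (fun w => W w * g2 E y h b w) w ∂Measure.pi (update E.μ y ν) ≤
      ENNReal.ofReal (9 * P ^ 7 * s) * ∫⁻ w, W w * E.FF y ν b w ∂Measure.pi (update E.μ y ν) := by
  have hxb : x ≠ b := fun e => hb (e ▸ mem_of_mem_erase hx)
  have hm1 : Measurable (({w | s < ‖E.ee y h w‖} ∩
      {w | mb E y h s x w ≤ ENNReal.ofReal (10 * P)⁻¹}).indicator fun w => W w * g2 E y h b w) :=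
    (hW.1.mul measurable_g2).indicator
      ((ms_lt s).inter (measurableSet_le (measurable_mb x) measurable_const))
  have hm2 : Measurable fun w => W w * E.FF y ν b w := hW.1.mul (E.measurable_FF y ν b)
  rw [← lint_site _ x hm1, ← lint_site _ x hm2, update_of_ne (ne_of_mem_erase hx),
    ← lintegral_const_mul _ (measurable_site _ x hm2)]
  refine lintegral_mono fun w => ?_
  by_cases hS : mb E y h s x w ≤ ENNReal.ofReal (10 * P)⁻¹
  swap
  · refine le_of_eq_of_le (lintegral_eq_zero_of_ae_eq_zero (.of_forall fun z => ?_)) (zero_le)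
    exact Set.indicator_of_notMem (fun hz => hS (by
      have := hz.2; rwa [Set.mem_ofPred_eq, mb_update] at this)) _
  have h1 := hB.slice_cfg b hx w hS
  have hm3 : MeasurableSet {z | s < ‖E.ee y h (update w x z)‖} :=
    (measurable_update w (a := x)) (ms_lt (E := E) (y := y) (h := h) s)
  have hm4 : Measurable fun z => g2 E y h b (update w x z) :=
    measurable_g2.comp (measurable_update w)
  have hm5 : Measurable fun z => E.FF y ν b (update w x z) :=
    (E.measurable_FF y ν b).comp (measurable_update w)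
  have hm6 : Measurable fun z => W (update w x z) * E.FF y ν b (update w x z) :=
    hm2.comp (measurable_update w)
  calc _ ≤ ∫⁻ z, ENNReal.ofReal 3 * W w * {z | s < ‖E.ee y h (update w x z)‖}.indicator
        (fun z => g2 E y h b (update w x z)) z ∂E.μ x := by
        refine lintegral_mono fun z => ?_
        by_cases hz : s < ‖E.ee y h (update w x z)‖
        · rw [Set.indicator_of_mem (s := {z | s < ‖E.ee y h (update w x z)‖}) hz]
          exact (Set.indicator_le_self _ _ _).trans (mul_le_mul_left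
            ((hW.2.2.2 w x z hxb).trans (mul_le_mul_left (exp_le hW) _)) _)
        · exact le_of_eq_of_le (Set.indicator_of_notMem (fun h => hz h.1) _) zero_le
    _ ≤ ENNReal.ofReal 3 * W w *
        (ENNReal.ofReal (P ^ 7 * s) * ∫⁻ z, E.FF y ν b (update w x z) ∂E.μ x) := by
        rw [lintegral_const_mul _ (hm4.indicator hm3), lintegral_indicator hm3]
        exact mul_le_mul_right h1 _
    _ = ENNReal.ofReal 3 * ENNReal.ofReal (P ^ 7 * s) *
        ∫⁻ z, W w * E.FF y ν b (update w x z) ∂E.μ x := by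
        rw [lintegral_const_mul _ hm5]; ring
    _ ≤ ENNReal.ofReal 3 * ENNReal.ofReal (P ^ 7 * s) * (ENNReal.ofReal 3 *
        ∫⁻ z, W (update w x z) * E.FF y ν b (update w x z) ∂E.μ x) := by
        rw [← lintegral_const_mul _ hm6]
        refine mul_le_mul_right (lintegral_mono fun z => ?_) _
        simp only [← mul_assoc]
        exact mul_le_mul_left ((back hW w hxb z).trans (mul_le_mul_left (exp_le hW) _)) _
    _ = _ := by
        rw [← mul_assoc, mul_right_comm (ENNReal.ofReal 3), ← ENNReal.ofReal_mul (by norm_num),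
          ← ENNReal.ofReal_mul (by norm_num)]
        congr 2; ring

/-- the slice at `x` is bad -/
def nS (E : Env V) (y : V) (h P s : ℝ) (x : V) : Set (V → ℂ) :=
  {w | ENNReal.ofReal (10 * P)⁻¹ < mb E y h s x w}

lemma ms_nS (x : V) : MeasurableSet (nS E y h P s x) :=
  measurableSet_lt measurable_const (measurable_mb x)

/-- Markov: bad slices are rare -/
lemma pbad (hB : Block E ν B Z y u win h γ P s lam l) {x : V} (hx : x ∈ B.erase y) (w : V → ℂ) :
    lmarginal E.μ (B.erase y) ((nS E y h P s x).indicator fun _ => 1) w ≤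
      ENNReal.ofReal (10 * P ^ 6 * s ^ 4) := by
  have hP : 0 < P := by linarith [hB.big]
  have hs := hB.s0
  have hT : Measurable ({w | s ^ 2 < ‖E.ee y h w‖}.indicator fun _ => (1 : ℝ≥0∞)) :=
    measurable_const.indicator (ms_lt _)
  have he : Measurable fun w => ENNReal.ofReal (‖E.ee y h w‖ ^ 2) := by fun_prop
  calc _ ≤ lmarginal E.μ (B.erase y) (fun w => ENNReal.ofReal (10 * P) * mb E y h s x w) w := by
        refine lm_mono _ _ (fun w => Set.indicator_apply_le' (fun hw => ?_) fun _ => zero_le) w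
        refine le_trans (le_of_eq ?_) (mul_le_mul_right (le_of_lt hw) _)
        rw [← ENNReal.ofReal_mul (by positivity), mul_inv_cancel₀ (by positivity),
          ENNReal.ofReal_one]
    _ = ENNReal.ofReal (10 * P) * lmarginal E.μ (B.erase y)
        ({w | s ^ 2 < ‖E.ee y h w‖}.indicator fun _ => (1 : ℝ≥0∞)) w := by
        rw [lm_const_mul _ _ _ (measurable_mb x), lm_site _ hx hT, funext (mb_eq x)]
    _ ≤ ENNReal.ofReal (10 * P) * lmarginal E.μ (B.erase y)
        (fun w => ENNReal.ofReal (s ^ 4)⁻¹ * ENNReal.ofReal (‖E.ee y h w‖ ^ 2)) w := by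
        refine mul_le_mul_right (lm_mono _ _
          (fun w => Set.indicator_apply_le' (fun hw => ?_) fun _ => zero_le) w) _
        rw [← ENNReal.ofReal_mul (by positivity), ← ENNReal.ofReal_one]
        refine ENNReal.ofReal_le_ofReal ?_
        rw [inv_mul_eq_div, one_le_div (by positivity), show s ^ 4 = (s ^ 2) ^ 2 by ring]
        exact pow_le_pow_left₀ (by positivity) (le_of_lt hw) 2
    _ ≤ ENNReal.ofReal (10 * P) * (ENNReal.ofReal (s ^ 4)⁻¹ * ENNReal.ofReal (P ^ 5 * s ^ 8)) := by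
        rw [lm_const_mul _ _ _ he]
        exact mul_le_mul_right (mul_le_mul_right (hB.ee_sq w) _) _
    _ = _ := by
        rw [← ENNReal.ofReal_mul (by positivity), ← ENNReal.ofReal_mul (by positivity)]
        congr 1; field_simp

/-- one term of the expansion at the reference -/
lemma term (hB : Block E ν B Z y u win h γ P s lam l) {x : V} (hx : x ∈ B.erase y) (w : V → ℂ) :
    lmarginal E.μ (B.erase y) ((nS E y h P s x).indicator fun w =>
      ENNReal.ofReal (‖E.GG y h w y x‖ ^ 2 * ‖cl (w x) - cl (E.r x)‖ ^ 2)) w ≤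
      ENNReal.ofReal (8 * P ^ 2 * win x) * ENNReal.ofReal (10 * P ^ 6 * s ^ 4) := by
  have hw0 : 0 < win x := E.η0.trans_le (hB.win0 x hx).1
  have hm : Measurable ((nS E y h P s x).indicator fun w =>
      ENNReal.ofReal (‖E.GG y h w y x‖ ^ 2 * ‖cl (w x) - cl (E.r x)‖ ^ 2)) :=
    Measurable.indicator (by fun_prop) (ms_nS x)
  have h1 : Measurable ((nS E y h P s x).indicator fun _ => (1 : ℝ≥0∞)) :=
    measurable_const.indicator (ms_nS x)
  refine le_trans ?_ (mul_le_mul_right (pbad hB hx w) _)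
  rw [lm_site _ hx hm, ← lm_const_mul _ _ _ h1]
  refine lm_mono _ _ (fun w => ?_) w
  by_cases hw : w ∈ nS E y h P s x
  · rw [Set.indicator_of_mem hw, mul_one]
    refine (lintegral_mono fun z => Set.indicator_le_self _ _ _).trans ?_
    simp only [update_self]
    refine (hB.site_GG hx w (c := fun z => ‖cl z - cl (E.r x)‖ ^ 2) (by fun_prop)
      (C := 2 * win x ^ 2) (by positivity) fun v hv => ?_).trans (le_of_eq ?_)
    · have h2 := (hB.sig x hx).2
      have h3 := abs_nonneg (E.r x).im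
      rw [Complex.sq_norm, normSq_apply]
      simp only [sub_re, cl_re, ofReal_re, sub_im, cl_im, ofReal_im, abs_zero, neg_zero, zero_sub,
        neg_neg]
      nlinarith [abs_mul_abs_self (v - (E.r x).re), abs_nonneg (v - (E.r x).re)]
    · congr 1; field_simp; ring
  · refine le_of_eq_of_le (lintegral_eq_zero_of_ae_eq_zero (.of_forall fun z => ?_)) zero_le
    exact Set.indicator_of_notMem (fun hz => hw (by
      simp only [nS, Set.mem_ofPred_eq, mb_update] at hz ⊢; exact hz)) _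

lemma fz_eq (hB : Block E ν B Z y u win h γ P s lam l) (w : V → ℂ) (z : ℂ) :
    fz E.r (B.erase y) (update w y z) = update (fz E.r B w) y z := by
  rw [fz_update_notMem _ _ (notMem_erase y B)]
  conv_rhs => rw [← insert_erase hB.yB, fz_insert, update_idem]

/-- expansion at the reference -/
lemma expand (hB : Block E ν B Z y u win h γ P s lam l) (b : V) (w : V → ℂ) :
    ‖E.GG y h w y b‖ ^ 2 ≤ P * ‖E.GG y h (fz E.r B w) y b‖ ^ 2 + ∑ x ∈ B.erase y,
      P * ‖E.GG y h (fz E.r B w) x b‖ ^ 2 * (‖E.GG y h w y x‖ ^ 2 * ‖cl (w x) - cl (E.r x)‖ ^ 2) := by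
  have h1 := resolvent_fz (G := E.G) E.η0 E.r (update w y (E.yh y h)) (B.erase y) y b
  rw [fz_eq hB] at h1
  let a : V → ℝ := fun x => if x = y then ‖E.GG y h (fz E.r B w) y b‖ else
    ‖E.GG y h (fz E.r B w) x b‖ * (‖E.GG y h w y x‖ * ‖cl (w x) - cl (E.r x)‖)
  have h2 : ‖E.GG y h w y b‖ ≤ ∑ x ∈ B, a x := by
    rw [← add_sum_erase _ _ hB.yB, Env.GG, h1]
    refine (norm_sub_le _ _).trans (add_le_add (by simp [a, Env.GG])
      ((norm_sum_le _ _).trans (sum_le_sum fun x hx => le_of_eq ?_)))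
    simp only [a, if_neg (ne_of_mem_erase hx), update_of_ne (ne_of_mem_erase hx), norm_mul, Env.GG]
    ring
  have h3 := sq_sum_le_card_mul_sum_sq (s := B) (f := a)
  have h4 : ∑ x ∈ B, a x ^ 2 = ‖E.GG y h (fz E.r B w) y b‖ ^ 2 + ∑ x ∈ B.erase y,
      ‖E.GG y h (fz E.r B w) x b‖ ^ 2 * (‖E.GG y h w y x‖ ^ 2 * ‖cl (w x) - cl (E.r x)‖ ^ 2) := by
    rw [← add_sum_erase _ _ hB.yB]
    refine congrArg₂ _ (by simp [a]) (sum_congr rfl fun x hx => ?_)
    simp only [a, if_neg (ne_of_mem_erase hx)]; ring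
  refine (pow_le_pow_left₀ (norm_nonneg _) h2 2).trans (h3.trans ((mul_le_mul_of_nonneg_right
    hB.card (sum_nonneg fun _ _ => sq_nonneg _)).trans (le_of_eq ?_)))
  rw [h4, mul_add, mul_sum]
  simp only [mul_assoc]

/-- all slices are bad -/
lemma part3 (hB : Block E ν B Z y u win h γ P s lam l) (hb : b ∉ B) (w : V → ℂ) :
    lmarginal E.μ (B.erase y) ((⋂ x ∈ B.erase y, nS E y h P s x).indicator (g2 E y h b)) w ≤
      ENNReal.ofReal (P ^ 22 * s ^ 4) *
        (∑ z ∈ Z, ENNReal.ofReal (‖Gr E.G E.η (fz E.r B w) z b‖ ^ 2) +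
          ENNReal.ofReal (s ^ 8) * ENNReal.ofReal (‖Gr E.G E.η (fz E.r B w) y b‖ ^ 2)) := by
  have hP : 1000 ≤ P := hB.big
  have hs := hB.s0
  obtain ⟨z₀, hz₀⟩ := hB.Zne
  have hz : z₀ ∈ B.erase y := mem_erase.2 ⟨fun e => hB.yZ (e ▸ hz₀), hB.ZB hz₀⟩
  let c : V → (V → ℂ) → ℝ≥0∞ := fun x w => ENNReal.ofReal (P * ‖E.GG y h (fz E.r B w) x b‖ ^ 2)
  have hc : ∀ x w, c x (fz E.r (B.erase y) w) = c x w := fun x w => by
    simp only [c, fz_fz, union_eq_left.2 (erase_subset y B)]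
  let t : V → (V → ℂ) → ℝ≥0∞ := fun x => (nS E y h P s x).indicator fun w =>
    ENNReal.ofReal (‖E.GG y h w y x‖ ^ 2 * ‖cl (w x) - cl (E.r x)‖ ^ 2)
  have ht : ∀ x, Measurable (t x) := fun x => Measurable.indicator (by fun_prop) (ms_nS x)
  have hcm : ∀ x, Measurable (c x) := fun x =>
    (show Measurable fun w => ENNReal.ofReal (P * ‖E.GG y h w x b‖ ^ 2) by fun_prop).comp
      (measurable_fz E.r B)
  have h1 : Measurable ((nS E y h P s z₀).indicator fun _ => (1 : ℝ≥0∞)) :=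
    measurable_const.indicator (ms_nS z₀)
  have hw0 : ∀ x ∈ B.erase y, 0 ≤ win x := fun x hx => E.η0.le.trans (hB.win0 x hx).1
  calc _ ≤ lmarginal E.μ (B.erase y) (fun w => c y w * (nS E y h P s z₀).indicator (fun _ => 1) w +
        ∑ x ∈ B.erase y, c x w * t x w) w := by
        refine lm_mono _ _ (fun w => Set.indicator_apply_le' (fun hw => ?_) fun _ => zero_le) w
        have hw' : ∀ x ∈ B.erase y, w ∈ nS E y h P s x := by simpa using hw
        refine (ENNReal.ofReal_le_ofReal (expand hB b w)).trans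
          (ENNReal.ofReal_add_le.trans (add_le_add ?_ ?_))
        · rw [Set.indicator_of_mem (hw' z₀ hz), mul_one]
        · rw [ENNReal.ofReal_sum_of_nonneg fun _ _ => by positivity]
          refine sum_le_sum fun x hx => ?_
          simp only [t, Set.indicator_of_mem (hw' x hx)]
          rw [ENNReal.ofReal_mul (by positivity)]
    _ ≤ c y w * ENNReal.ofReal (10 * P ^ 6 * s ^ 4) + ∑ x ∈ B.erase y, c x w *
        (ENNReal.ofReal (8 * P ^ 2 * win x) * ENNReal.ofReal (10 * P ^ 6 * s ^ 4)) := by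
        rw [lm_add _ _ ((hcm y).fun_mul h1), lm_sum _ _ _ fun x _ => (hcm x).fun_mul (ht x),
          lm_mul _ E.r _ (hc y) h1]
        refine add_le_add (mul_le_mul_right (pbad hB hz w) _) (sum_le_sum fun x hx => ?_)
        rw [lm_mul _ E.r _ (hc x) (ht x)]
        exact mul_le_mul_right (term hB hx w) _
    _ = ENNReal.ofReal (10 * P ^ 7 * s ^ 4 * (‖E.GG y h (fz E.r B w) y b‖ ^ 2 +
        8 * P ^ 2 * ∑ x ∈ B.erase y, win x * ‖E.GG y h (fz E.r B w) x b‖ ^ 2)) := by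
        rw [mul_add, ENNReal.ofReal_add (by positivity) (mul_nonneg (by positivity)
          (mul_nonneg (by positivity) (sum_nonneg fun x hx => mul_nonneg (hw0 x hx) (sq_nonneg _)))),
          mul_sum, mul_sum, ENNReal.ofReal_sum_of_nonneg fun x hx => by
            have := hw0 x hx; positivity]
        refine congrArg₂ _ ?_ (sum_congr rfl fun x hx => ?_)
        · simp only [c]; rw [← ENNReal.ofReal_mul (by positivity)]; congr 1; ring
        · have := hw0 x hx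
          simp only [c]
          rw [← ENNReal.ofReal_mul (by positivity), ← ENNReal.ofReal_mul (by positivity)]
          congr 1; ring
    _ ≤ _ := by
        rw [← ENNReal.ofReal_sum_of_nonneg fun _ _ => sq_nonneg _,
          ← ENNReal.ofReal_mul (by positivity), ← ENNReal.ofReal_add
            (sum_nonneg fun _ _ => sq_nonneg _) (by positivity),
          ← ENNReal.ofReal_mul (by positivity)]
        refine ENNReal.ofReal_le_ofReal ?_
        have h2 := hB.flux_le hb w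
        have h3 : 0 ≤ ∑ x ∈ B.erase y, win x * ‖E.GG y h (fz E.r B w) x b‖ ^ 2 :=
          sum_nonneg fun x hx => mul_nonneg (hw0 x hx) (sq_nonneg _)
        have h4 := sq_nonneg ‖E.GG y h (fz E.r B w) y b‖
        have h5 : 0 ≤ ∑ z ∈ Z, ‖Gr E.G E.η (fz E.r B w) z b‖ ^ 2 +
            s ^ 8 * ‖Gr E.G E.η (fz E.r B w) y b‖ ^ 2 :=
          add_nonneg (sum_nonneg fun _ _ => sq_nonneg _) (by positivity)
        generalize ∑ x ∈ B.erase y, win x * ‖E.GG y h (fz E.r B w) x b‖ ^ 2 = a at *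
        generalize ‖E.GG y h (fz E.r B w) y b‖ ^ 2 = a' at *
        generalize ∑ z ∈ Z, ‖Gr E.G E.η (fz E.r B w) z b‖ ^ 2 +
            s ^ 8 * ‖Gr E.G E.η (fz E.r B w) y b‖ ^ 2 = d at *
        have h6 : a' + 8 * P ^ 2 * a ≤ 8 * P ^ 2 * (P ^ 12 * d) :=
          le_trans (by nlinarith [mul_nonneg h4 (show (0 : ℝ) ≤ 8 * P ^ 2 - 1 by nlinarith)])
            (mul_le_mul_of_nonneg_left h2 (by positivity))
        refine (mul_le_mul_of_nonneg_left h6 (by positivity)).trans ?_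
        have h7 : 0 ≤ P ^ 21 * s ^ 4 * d := by positivity
        nlinarith

end BP

end Crest.Agent.N334.T
end

-- ▼ part N334/T/BP
section

/-!
# Row 334, engine T: the bad phase bound (helper86; proof helper52)
-/

set_option autoImplicit false
set_option linter.unusedSectionVars false

open MeasureTheory Complex Finset Function
open scoped ENNReal

namespace Crest.Agent.N334.T

variable {V : Type} [Fintype V] [DecidableEq V]

namespace BP

variable {E : Env V} {ν : Measure ℂ} {B Z : Finset V} {y : V} {u : V → ℂ} {win : V → ℝ}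
  {h γ P s lam : ℝ} {l : ℕ} {W : (V → ℂ) → ℝ≥0∞} {b : V} {k Q : ℝ}

/-- thawing the whole block -/
lemma aq_le (hW : Temp W b k) (hb : b ∉ B) (hk : Real.exp (k * B.card) ≤ Q)
    (hκ : Real.exp (∑ x ∈ B, E.κ x) ≤ Q) (y : V) :
    E.Aq W b B y ≤ ENNReal.ofReal (Q ^ 5) * Rq E.G E.η E.μ W y b := by
  have hQ : 0 < Q := (Real.exp_pos _).trans_le hk
  have hg : Measurable fun w => ENNReal.ofReal (‖Gr E.G E.η w y b‖ ^ 2) := by fun_prop
  have hm : Measurable fun w => W w * ENNReal.ofReal (‖Gr E.G E.η w y b‖ ^ 2) := hW.1.fun_mul hg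
  rw [Rq, ← lintegral_const_mul _ hm]
  refine lint_ge_of_lm E.μ B (hm.const_mul _) fun w => ?_
  have h1 : ‖Gr E.G E.η (fz E.r B w) y b‖ ^ 2 ≤ Q ^ 4 *
      (Real.exp (-(4 * ∑ x ∈ B, E.κ x)) * ‖Gr E.G E.η (fz E.r B w) y b‖ ^ 2) := by
    rw [← mul_assoc]
    refine le_mul_of_one_le_left (sq_nonneg _) ?_
    rw [Real.exp_neg, ← div_eq_mul_inv, one_le_div (Real.exp_pos _),
      show (4 : ℝ) = (4 : ℕ) by norm_num, Real.exp_nat_mul]
    exact pow_le_pow_left₀ (Real.exp_pos _).le hκ 4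
  calc _ ≤ W (fz E.r B w) * (ENNReal.ofReal (Q ^ 4) * lmarginal E.μ B
        (fun w => ENNReal.ofReal (‖Gr E.G E.η w y b‖ ^ 2)) w) := by
        refine mul_le_mul_right ((ENNReal.ofReal_le_ofReal h1).trans ?_) _
        rw [ENNReal.ofReal_mul (by positivity)]
        exact mul_le_mul_right (E.lower_ref B y b w) _
    _ = lmarginal E.μ B (fun w => W (fz E.r B w) * (ENNReal.ofReal (Q ^ 4) *
        ENNReal.ofReal (‖Gr E.G E.η w y b‖ ^ 2))) w := by
        rw [lm_mul E.μ E.r B (a := fun w => W (fz E.r B w))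
          (fun w => by rw [fz_fz, union_idempotent]) (hg.const_mul _), lm_const_mul _ _ _ hg]
    _ ≤ _ := by
        refine lm_mono _ _ (fun w => ?_) w
        rw [pow_succ' Q 4, ENNReal.ofReal_mul hQ.le]
        refine (mul_le_mul_left ((hW.fz_le E.r hb w).trans
          (mul_le_mul_left (ENNReal.ofReal_le_ofReal hk) _)) _).trans (le_of_eq ?_)
        ring

/-- transfer from the outer layer -/
lemma aq_out (hB : Block E ν B Z y u win h γ P s lam l) {D : ℕ} {Bb : ℝ≥0∞} (hW : Temp W b k)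
    (hb : b ∉ B) {z : V} (hz : z ∈ Z) (hD : b ∉ ball E.G z (3 * D)) (hHB : E.HB W b k B Bb)
    (hk : Real.exp (k * B.card) ≤ Q) (hκ : Real.exp (∑ x ∈ B, E.κ x) ≤ Q)
    (hl : Real.exp (lam * (l + 4004) ^ 2) ≤ Q) :
    E.Aq W b B z ≤ ENNReal.ofReal (Q ^ 3013 * s ^ 8) * Rq E.G E.η E.μ W y b +
      ENNReal.ofReal (Q ^ 2) * (ENNReal.ofReal (Real.exp (-(lam * D ^ 2))) * Bb) := by
  have hQ : 0 < Q := (Real.exp_pos _).trans_le hk
  have hP := hB.big
  have hs := hB.s0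
  obtain ⟨x₀, hx₀, hu, hI, hg⟩ := hB.tgt z hz
  have hlam : 0 ≤ lam := by
    have h1 := hg 0 x₀ (mem_singleton_self x₀)
    have h2 := Real.log_nonneg (show 1 ≤ E.Λ x₀ by linarith [(E.law x₀).big])
    simpa using h2.trans h1
  refine (E.tl hW hI hb hD hg (a₀ := P / s ^ 4) (by positivity) (hB.obs_ge hx₀ hu) hHB).trans
    (add_le_add (mul_le_mul_left (ENNReal.ofReal_le_ofReal ?_) _) ?_)
  · have h1 : Real.exp (k * B.card + 12 * ∑ x ∈ B, E.κ x + 3000 * lam * (l + 4004) ^ 2) ≤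
        Q ^ 3013 := by
      rw [Real.exp_add, Real.exp_add, mul_assoc (3000 : ℝ), show (12 : ℝ) = (12 : ℕ) by norm_num,
        show (3000 : ℝ) = (3000 : ℕ) by norm_num, Real.exp_nat_mul, Real.exp_nat_mul,
        show 3013 = 1 + 12 + 3000 by rfl, pow_add, pow_add, pow_one]
      exact mul_le_mul (mul_le_mul hk (pow_le_pow_left₀ (Real.exp_pos _).le hκ _)
        (pow_pos (Real.exp_pos _) _).le hQ.le) (pow_le_pow_left₀ (Real.exp_pos _).le hl _)
        (pow_pos (Real.exp_pos _) _).le (mul_pos hQ (pow_pos hQ _)).le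
    have h2 : ((P / s ^ 4) ^ 2)⁻¹ ≤ s ^ 8 := by
      rw [div_pow, inv_div, ← pow_mul]
      exact div_le_self (by positivity) (one_le_pow₀ (by linarith))
    rw [div_eq_mul_inv]
    exact mul_le_mul h1 h2 (by positivity) (pow_pos hQ _).le
  · rw [← mul_assoc, ← ENNReal.ofReal_mul (pow_pos hQ _).le]
    refine mul_le_mul_left (ENNReal.ofReal_le_ofReal ?_) _
    rw [sub_eq_add_neg, Real.exp_add, Real.exp_add, sq Q]
    refine mul_le_mul_of_nonneg_right (mul_le_mul hk (le_trans (Real.exp_le_exp.2 ?_) hl)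
      (Real.exp_pos _).le hQ.le) (Real.exp_pos _).le
    have : (0 : ℝ) ≤ l := Nat.cast_nonneg l
    nlinarith [mul_nonneg (mul_nonneg hlam (show (0 : ℝ) ≤ l + 4004 by linarith))
      (show (0 : ℝ) ≤ l + 3974 by linarith)]

/-- all slices bad, integrated -/
lemma part4 (hB : Block E ν B Z y u win h γ P s lam l) [IsProbabilityMeasure ν] (hW : Temp W b k)
    (hb : b ∉ B) (hk : Real.exp (k * B.card) ≤ Q) :
    ∫⁻ w, (⋂ x ∈ B.erase y, nS E y h P s x).indicator (fun w => W w * g2 E y h b w) w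
        ∂Measure.pi (update E.μ y ν) ≤
      ENNReal.ofReal Q * (ENNReal.ofReal (P ^ 22 * s ^ 4) *
        (∑ z ∈ Z, E.Aq W b B z + ENNReal.ofReal (s ^ 8) * E.Aq W b B y)) := by
  have hN : MeasurableSet (⋂ x ∈ B.erase y, nS E y h P s x) :=
    Finset.measurableSet_biInter _ fun x _ => ms_nS x
  have hg : Measurable ((⋂ x ∈ B.erase y, nS E y h P s x).indicator (g2 E y h b)) :=
    measurable_g2.indicator hN
  have hWf : Measurable fun w => W (fz E.r B w) := hW.1.comp (measurable_fz E.r B)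
  have hm : ∀ z, Measurable fun w => W w * ENNReal.ofReal (‖Gr E.G E.η w z b‖ ^ 2) :=
    fun z => hW.1.fun_mul (by fun_prop)
  have hm' : ∀ z, Measurable fun w => W (fz E.r B w) *
      ENNReal.ofReal (‖Gr E.G E.η (fz E.r B w) z b‖ ^ 2) :=
    fun z => (hm z).comp (measurable_fz E.r B)
  have hA : ∀ z, E.Aq W b B z = ∫⁻ w, W (fz E.r B w) *
      ENNReal.ofReal (‖Gr E.G E.η (fz E.r B w) z b‖ ^ 2) ∂Measure.pi (update E.μ y ν) := fun z =>
    lint_fz_congr E.μ _ E.r B (fun x hx => (update_of_ne (fun e : x = y => hx (e ▸ hB.yB)) _ _).symm) (hm z)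
  calc _ ≤ ∫⁻ w, ENNReal.ofReal Q * (W (fz E.r B w) *
        (⋂ x ∈ B.erase y, nS E y h P s x).indicator (g2 E y h b) w)
        ∂Measure.pi (update E.μ y ν) := by
        refine lintegral_mono fun w => Set.indicator_apply_le' (fun hw => ?_) fun _ => zero_le
        rw [Set.indicator_of_mem hw, ← mul_assoc]
        exact mul_le_mul_left ((hW.le_fz E.r hb w).trans
          (mul_le_mul_left (ENNReal.ofReal_le_ofReal hk) _)) _
    _ ≤ ENNReal.ofReal Q * ∫⁻ w, ENNReal.ofReal (P ^ 22 * s ^ 4) *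
        (∑ z ∈ Z, W (fz E.r B w) * ENNReal.ofReal (‖Gr E.G E.η (fz E.r B w) z b‖ ^ 2) +
          ENNReal.ofReal (s ^ 8) * (W (fz E.r B w) *
            ENNReal.ofReal (‖Gr E.G E.η (fz E.r B w) y b‖ ^ 2))) ∂Measure.pi (update E.μ y ν) := by
        rw [lintegral_const_mul _ (hWf.fun_mul hg)]
        refine mul_le_mul_right (lint_le_of_lm _ (B.erase y) (hWf.fun_mul hg) fun w => ?_) _
        rw [lm_mul _ E.r _ (a := fun w => W (fz E.r B w))
          (fun w => by rw [fz_fz, union_eq_left.2 (erase_subset y B)]) hg,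
          lm_congr_law _ E.μ _ fun x hx => update_of_ne (ne_of_mem_erase hx) _ _]
        refine (mul_le_mul_right (part3 hB hb w) _).trans (le_of_eq ?_)
        rw [← mul_sum]; ring
    _ = _ := by
        rw [lintegral_const_mul _ ((Finset.measurable_fun_sum _ fun z _ => hm' z).fun_add
          ((hm' y).const_mul _)), lintegral_add_left (Finset.measurable_fun_sum _ fun z _ => hm' z),
          lintegral_finsetSum _ fun z _ => hm' z, lintegral_const_mul _ (hm' y)]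
        simp only [hA]

lemma card_mul_le {S : Finset V} (hS : (S.card : ℝ) ≤ P) {f : V → ℝ≥0∞} {c : ℝ≥0∞}
    (hf : ∀ x ∈ S, f x ≤ c) : ∑ x ∈ S, f x ≤ ENNReal.ofReal P * c := by
  refine (sum_le_card_nsmul _ _ _ hf).trans ?_
  rw [nsmul_eq_mul, ← ENNReal.ofReal_natCast]
  exact mul_le_mul_left (ENNReal.ofReal_le_ofReal hS) _

lemma comb {a₁ a₂ c : ℝ} {X Y : ℝ≥0∞} (h₁ : a₁ ≤ c) (h₂ : a₂ ≤ c) :
    ENNReal.ofReal a₁ * X + ENNReal.ofReal a₂ * Y ≤ ENNReal.ofReal c * (X + Y) := by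
  rw [mul_add]
  exact add_le_add (mul_le_mul_left (ENNReal.ofReal_le_ofReal h₁) _)
    (mul_le_mul_left (ENNReal.ofReal_le_ofReal h₂) _)

end BP

open BP in
/-- BP: the intensity seen by a matched absorber at the centre of a block is much smaller than the
true one -/
theorem Block.bp {E : Env V} {ν : Measure ℂ} {B Z : Finset V} {y : V} {u : V → ℂ} {win : V → ℝ}
    {h γ P s lam : ℝ} {l : ℕ} (hB : Block E ν B Z y u win h γ P s lam l) {W : (V → ℂ) → ℝ≥0∞}
    {b : V} {k Q : ℝ} {D : ℕ} {Bb : ℝ≥0∞} (hW : Temp W b k) (hb : b ∉ B)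
    (hD : ∀ z ∈ Z, b ∉ ball E.G z (3 * D)) (hHB : E.HB W b k B Bb) (hP : P ≤ Q)
    (hk : Real.exp (k * B.card) ≤ Q) (hκ : Real.exp (∑ x ∈ B, E.κ x) ≤ Q)
    (hl : Real.exp (lam * (l + 4004) ^ 2) ≤ Q) :
    ∫⁻ w, W w * ENNReal.ofReal (‖E.GG y h w y b‖ ^ 2) ∂Measure.pi (update E.μ y ν) ≤
      ENNReal.ofReal (Q ^ 3100 * s) * (Rq E.G E.η (update E.μ y ν) W y b +
        ENNReal.ofReal (Real.exp (-(lam * D ^ 2))) * Bb) := by
  have := hB.νp
  have hP0 := hB.big
  have hs := hB.s0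
  have hs1 := s_le hB
  have hyb : y ≠ b := fun e => hb (e ▸ hB.yB)
  have hc : ∀ {S : Finset V}, S ⊆ B → (S.card : ℝ) ≤ P := fun hS =>
    (Nat.cast_le.2 (card_le_card hS)).trans hB.card
  have hFF : Measurable fun w => W w * E.FF y ν b w := hW.1.fun_mul (E.measurable_FF y ν b)
  have hf : Measurable fun w => W w * g2 E y h b w := hW.1.fun_mul measurable_g2
  have hm2 : ∀ x, Measurable (({w | s < ‖E.ee y h w‖} ∩
      {w | mb E y h s x w ≤ ENNReal.ofReal (10 * P)⁻¹}).indicator fun w => W w * g2 E y h b w) :=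
    fun x => hf.indicator ((ms_lt s).inter (measurableSet_le (measurable_mb x) measurable_const))
  have hR : Rq E.G E.η E.μ W y b ≤
      ENNReal.ofReal (P / (P ^ 4 * s ^ 8)) * Rq E.G E.η (update E.μ y ν) W y b :=
    lint_update_le E.μ hB.sub (hW.1.fun_mul (by fun_prop))
  have h1 := wff (E := E) (ν := ν) hW hyb
  have h4 := part4 hB hW hb hk
  have h5 := card_mul_le (hc hB.ZB) fun z hz => aq_out hB hW hb hz (hD z hz) hHB hk hκ hl
  have h6 := aq_le hW hb hk hκ y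
  have h2 := card_mul_le (hc (erase_subset y B)) fun x hx => part2 hB hW hb hx
  have h0 : ∫⁻ w, W w * ENNReal.ofReal (‖E.GG y h w y b‖ ^ 2) ∂Measure.pi (update E.μ y ν) ≤
      ∫⁻ w, ENNReal.ofReal (8 * P ^ 2 * s) * (W w * E.FF y ν b w) + ∑ x ∈ B.erase y,
        ({w | s < ‖E.ee y h w‖} ∩ {w | mb E y h s x w ≤ ENNReal.ofReal (10 * P)⁻¹}).indicator
          (fun w => W w * g2 E y h b w) w + (⋂ x ∈ B.erase y, nS E y h P s x).indicator
            (fun w => W w * g2 E y h b w) w ∂Measure.pi (update E.μ y ν) := by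
    refine lintegral_mono fun w => ?_
    by_cases he : ‖E.ee y h w‖ ≤ s
    · refine le_trans ?_ (le_self_add.trans le_self_add)
      rw [mul_left_comm]
      exact mul_le_mul_right (part1 hB b w he) _
    by_cases hN : w ∈ ⋂ x ∈ B.erase y, nS E y h P s x
    · rw [Set.indicator_of_mem hN]; exact le_add_self
    · obtain ⟨x, hx, hx'⟩ : ∃ x ∈ B.erase y, w ∉ nS E y h P s x := by
        simpa only [Set.mem_iInter, not_forall, exists_prop] using hN
      refine le_trans ?_ (le_add_self.trans le_self_add)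
      refine le_trans (le_of_eq ?_) (single_le_sum (fun _ _ => zero_le) hx)
      exact (Set.indicator_of_mem (show w ∈ {w | s < ‖E.ee y h w‖} ∩
        {w | mb E y h s x w ≤ ENNReal.ofReal (10 * P)⁻¹} from ⟨not_le.1 he,
          show mb E y h s x w ≤ _ from le_of_not_gt hx'⟩)
          fun w => W w * g2 E y h b w).symm
  rw [lintegral_add_left ((hFF.const_mul _).fun_add (Finset.measurable_fun_sum _ fun x _ => hm2 x)),
    lintegral_add_left (hFF.const_mul _), lintegral_const_mul _ hFF,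
    lintegral_finsetSum _ fun x _ => hm2 x] at h0
  refine h0.trans ((add_le_add (add_le_add (mul_le_mul_right h1 _)
    (h2.trans (mul_le_mul_right (mul_le_mul_right h1 _) _))) (h4.trans (mul_le_mul_right
      (mul_le_mul_right (add_le_add (h5.trans (mul_le_mul_right (add_le_add
        (mul_le_mul_right hR _) le_rfl) _)) (mul_le_mul_right (h6.trans
          (mul_le_mul_right hR _)) _)) _) _))).trans ?_)
  generalize Rq E.G E.η (update E.μ y ν) W y b = X
  generalize ENNReal.ofReal (Real.exp (-(lam * D ^ 2))) * Bb = Y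
  have hQ1 : 1000 ≤ Q := hP0.trans hP
  have hQ : 0 < Q := by linarith
  have hPp : 0 < P := by linarith
  have e1 : Q ^ 3100 = Q ^ 3013 * Q ^ 87 := by rw [← pow_add]
  have hT : 1 ≤ Q ^ 3013 := one_le_pow₀ (by linarith)
  have hT5 : Q ^ 5 ≤ Q ^ 3013 := pow_le_pow_right₀ (by linarith) (by norm_num)
  rw [e1]
  generalize Q ^ 3013 = T at *
  have hT0 : 0 < T := by linarith
  have h40 : ∀ n : ℕ, n ≤ 40 → P ^ n ≤ Q ^ 40 := fun n hn =>
    (pow_le_pow_left₀ hPp.le hP n).trans (pow_le_pow_right₀ (by linarith) hn)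
  have hs4 : s ^ 4 ≤ s := pow_le_of_le_one hs.le hs1 (by norm_num)
  have hQ40 : 0 < Q ^ 40 := pow_pos hQ _
  have h87 : 100 * (Q * Q ^ 40) ≤ Q ^ 87 := by
    rw [show Q ^ 87 = Q ^ 46 * (Q * Q ^ 40) by ring]
    exact mul_le_mul_of_nonneg_right (le_trans (by linarith)
      (le_self_pow₀ (by linarith) (by norm_num))) (by positivity)
  refine le_trans (le_of_eq ?_) (comb (X := X) (Y := Y)
    (a₁ := 24 * P ^ 2 * s + 27 * P ^ 8 * s + Q * s ^ 4 * (P ^ 20 * T + P ^ 19 * Q ^ 5))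
    (a₂ := Q * s ^ 4 * (P ^ 23 * Q ^ 2)) ?_ ?_)
  · have e2 : Q * s ^ 4 * (P ^ 20 * T + P ^ 19 * Q ^ 5) = Q * (P ^ 22 * s ^ 4 *
        (P * (T * s ^ 8 * (P / (P ^ 4 * s ^ 8))) + s ^ 8 * (Q ^ 5 * (P / (P ^ 4 * s ^ 8))))) := by
      field_simp
    rw [e2, show 24 * P ^ 2 * s = 8 * P ^ 2 * s * 3 by ring,
      show 27 * P ^ 8 * s = P * (9 * P ^ 7 * s * 3) by ring,
      show Q * s ^ 4 * (P ^ 23 * Q ^ 2) = Q * (P ^ 22 * s ^ 4 * (P * Q ^ 2)) by ring]
    rw [ENNReal.ofReal_add (by positivity) (by positivity),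
      ENNReal.ofReal_add (by positivity) (by positivity),
      ENNReal.ofReal_mul (p := 8 * P ^ 2 * s) (by positivity), ENNReal.ofReal_mul hPp.le,
      ENNReal.ofReal_mul (p := 9 * P ^ 7 * s) (by positivity), ENNReal.ofReal_mul hQ.le,
      ENNReal.ofReal_mul hQ.le, ENNReal.ofReal_mul (p := P ^ 22 * s ^ 4) (by positivity),
      ENNReal.ofReal_mul (p := P ^ 22 * s ^ 4) (by positivity),
      ENNReal.ofReal_add (by positivity) (by positivity), ENNReal.ofReal_mul hPp.le,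
      ENNReal.ofReal_mul hPp.le, ENNReal.ofReal_mul (p := T * s ^ 8) (by positivity),
      ENNReal.ofReal_mul (p := s ^ 8) (by positivity),
      ENNReal.ofReal_mul (p := Q ^ 5) (by positivity)]
    ring
  · have a1 : P ^ 20 * T + P ^ 19 * Q ^ 5 ≤ 2 * (Q ^ 40 * T) := by
      have := mul_le_mul (h40 19 (by norm_num)) hT5 (by positivity) hQ40.le
      have := mul_le_mul_of_nonneg_right (h40 20 (by norm_num)) hT0.le
      linarith
    have a2 : Q * s ^ 4 * (P ^ 20 * T + P ^ 19 * Q ^ 5) ≤ Q * s * (2 * (Q ^ 40 * T)) :=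
      mul_le_mul (mul_le_mul_of_nonneg_left hs4 hQ.le) a1 (by positivity) (by positivity)
    have a3 : Q ^ 40 ≤ T * (Q * Q ^ 40) :=
      (le_mul_of_one_le_left hQ40.le (by linarith)).trans (le_mul_of_one_le_left (by positivity) hT)
    have a4 := mul_le_mul_of_nonneg_right ((h40 2 (by norm_num)).trans a3) hs.le
    have a5 := mul_le_mul_of_nonneg_right ((h40 8 (by norm_num)).trans a3) hs.le
    have a6 := mul_le_mul_of_nonneg_right (mul_le_mul_of_nonneg_left h87 hT0.le) hs.le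
    have a7 : 0 ≤ T * (Q * Q ^ 40) * s := by positivity
    generalize Q ^ 87 = A at *
    generalize Q ^ 40 = A' at *
    nlinarith
  · have a1 : P ^ 23 * Q ^ 2 ≤ Q ^ 40 * T :=
      mul_le_mul (h40 23 (by norm_num)) ((pow_le_pow_right₀ (by linarith) (by norm_num)).trans hT5)
        (by positivity) hQ40.le
    have a2 : Q * s ^ 4 * (P ^ 23 * Q ^ 2) ≤ Q * s * (Q ^ 40 * T) :=
      mul_le_mul (mul_le_mul_of_nonneg_left hs4 hQ.le) a1 (by positivity) (by positivity)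
    have a6 := mul_le_mul_of_nonneg_right (mul_le_mul_of_nonneg_left h87 hT0.le) hs.le
    have a7 : 0 ≤ T * (Q * Q ^ 40) * s := by positivity
    generalize Q ^ 87 = A at *
    generalize Q ^ 40 = A' at *
    nlinarith

end Crest.Agent.N334.T
end

-- ▼ part N334/Br/X1

/-!
# Row 334, bridge from the engine `T` to `Sw.BPat`, `Sw.LCat`: the bias at the centre of a block (leaf Br-X1)
-/

set_option autoImplicit false

open MeasureTheory Complex Finset Function
open scoped ENNReal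

noncomputable section

namespace Crest.Agent.N334.Br

open G I Sw

namespace X1

theorem map_upd {X : Type} [DecidableEq X] {μ μ' : X → Measure ℂ} {y : X} {E η : ℝ}
    (hμ : ∀ x, x ≠ y → μ' x = (μ x).map (toT E η)) (ρ : Measure ℂ) :
    (fun x => (update μ y ρ x).map (toT E η)) = update μ' y (ρ.map (toT E η)) := by
  funext x
  rcases eq_or_ne x y with rfl | hx
  · rw [update_self, update_self]
  · rw [update_of_ne hx, update_of_ne hx, hμ x hx]

/-- strength of a port in the coordinates of `T` -/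
def st (η : ℝ) (β : Bool) (z : ℂ) : ℝ := if β then |z.im| else η

theorem st_nonneg {η : ℝ} (hη : 0 < η) (β : Bool) (z : ℂ) : 0 ≤ st η β z := by
  cases β
  exacts [hη.le, abs_nonneg _]

theorem measurable_st (η : ℝ) (β : Bool) : Measurable (st η β) := by
  unfold st; cases β <;> simp only [if_true, Bool.false_eq_true, if_false] <;> fun_prop

variable {V : Type} [Fintype V] [DecidableEq V] (E' : T.Env V)

theorem hb_st {W : (V → ℂ) → ℝ≥0∞} {k : ℝ} (hW : ∀ x, T.Temp W x k)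
    (hWb : ∀ w x z, W (update w x z) ≤ ENNReal.ofReal (Real.exp k) * W w) (x : V)
    (hη : E'.η * E'.Λ x ≤ 1) (β : Bool) (B : Finset V) :
    T.Temp (fun w => ENNReal.ofReal (st E'.η β (w x)) * W w) x k ∧
      E'.HB (fun w => ENNReal.ofReal (st E'.η β (w x)) * W w) x k B
        (ENNReal.ofReal 100 * ∫⁻ w, W w ∂Measure.pi E'.μ) := by
  cases β
  · refine ⟨⟨(hW x).1.const_mul (ENNReal.ofReal E'.η), (hW x).2.1, (hW x).2.2.1, fun w v z _ => ?_⟩,
      fun R hR hb z hz => ?_⟩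
    · simp only [st, Bool.false_eq_true, if_false]
      rw [mul_left_comm]
      exact mul_le_mul_right (hWb w v z) _
    · have h := E'.hb_pas (hW x) (fun w z => hWb w x z) B R hR hb z hz
      simp only [T.Env.Aq, st, Bool.false_eq_true, if_false, mul_assoc] at h ⊢
      rw [lintegral_const_mul' _ _ ENNReal.ofReal_ne_top]
      refine (mul_le_mul_right h _).trans ?_
      rw [mul_left_comm, ← mul_assoc (ENNReal.ofReal E'.η), ← ENNReal.ofReal_mul E'.η0.le]
      gcongr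
      linarith
  · obtain ⟨h1, h2⟩ := E'.hb_act (hW x) B
    refine ⟨h1, fun R hR hb z hz => (h2 R hR hb z hz).trans (mul_le_mul_right ?_ _)⟩
    exact le_mul_of_one_le_left' (by simp)

theorem ae_im (E : ℝ) {γ : ℝ} (hγ : 0 ≤ γ) (ν : Measure ℝ) [IsProbabilityMeasure ν] (y : V) :
    ∀ᵐ w ∂Measure.pi (update E'.μ y (Md.tl E γ ν)), |(w y).im| = γ := by
  refine (Measure.tendsto_eval_ae_ae (i := y)).eventually (p := fun z : ℂ => |z.im| = γ) ?_
  rw [update_self]
  refine (ae_map_iff (Md.measurable_sh E γ).aemeasurable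
    (measurableSet_eq_fun (by fun_prop) measurable_const)).2 (ae_of_all _ fun a => ?_)
  rw [Md.sh_im, abs_neg, abs_of_nonneg hγ]

theorem exp_le {k : ℝ} (k1 : k ≤ 1) : Real.exp k ≤ 3 :=
  (Real.exp_le_exp.2 k1).trans Real.exp_one_lt_three.le

end X1
open X1

/-- Pass to `T` by `Ip_eq_lint` (`map_lift`, `toT_pt`, `lint_site` with the Dirac law) and `cc_KT`:
at the reference `γ / b * cc = 4 γ str |GG y x|²`.  Put `W~ w = ofReal (W (KT (update w y yh)))`
(`temp_KT_update`; it does not depend on `w y`, so `lint_update_law`, and `W~ ≤ e^k W (KT w)`).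
Source `x ∉ B`: `Block.bp` with the weight `|Im w x| * W~` and `hb_act` (active port), with `W~` and
`hb_pas` (passive port, `η * 100 Λ ≤ 100`); `4 γ str |Gr y x|² = cc (KT w)` as `|Im w y| = γ` a.e.
Source `x ∈ B.erase y`: the active port has `Im (w x) = 0` a.e. (`hB.hi`), the passive one is
bounded by `lint_site` and `site_GG` (`c = C = 1`): `η e^{2k} 4 P² / win x ≤ 4 e² P² s`.
Source `y`: `cc ≤ 4`, `γ / b ≤ P s⁸`. -/
theorem x1 {L : G.Lat} {E' : T.Env L.X} (hA : Adj L E'.G) {E : ℝ} {B Z : Finset L.X} {y : L.X}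
    {u : L.X → ℂ} {win : L.X → ℝ} {a₀ b γ P s lam : ℝ} {l : ℕ}
    (hB : T.Block E' (Md.tl E γ (law a₀ b)) B Z y u win b γ P s lam l)
    (hr : (E'.r y).re = a₀ - E) (μ : L.X → Measure ℂ) [∀ x, IsProbabilityMeasure (μ x)]
    (hμ : ∀ x, x ≠ y → E'.μ x = (μ x).map (toT E E'.η)) {W : L.Mat → ℝ} {k Q : ℝ}
    (hW : Temp E E'.η W k) (k0 : 0 ≤ k) (k1 : k ≤ 1) (hP : P ≤ Q)
    (hk : Real.exp (k * B.card) ≤ Q) (hκ : Real.exp (∑ x ∈ B, E'.κ x) ≤ Q)
    (hl : Real.exp (lam * (l + 4004) ^ 2) ≤ Q) (hη : ∀ x, E'.η * E'.Λ x ≤ 1)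
    (hη' : ∀ x ∈ B.erase y, E'.η ≤ s * win x) (q : L.P) {D : ℕ}
    (hD : q.1 ∉ B → ∀ z ∈ Z, q.1 ∉ T.ball E'.G z (3 * D)) (hD0 : q.1 ∈ B → D = 0) :
    γ / b * Ip L E E'.η (update μ y (Measure.dirac (pt (E'.η + b) a₀)))
        (fun K => W K * cc K (y, true) q) ≤
      Q ^ 3110 * s * (Ip L E E'.η (update μ y (lift (E'.η + γ) (law a₀ b)))
        (fun K => W K * cc K (y, true) q) + Real.exp (-(lam * D ^ 2)) * Ip L E E'.η μ W) := by
  have hη0 := E'.η0
  have hb := hB.h_pos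
  have hγ := hB.γ0
  have hP0 := hB.P_pos
  have hs := hB.s0
  have hQ : 1000 ≤ Q := hB.big.trans hP
  have hs1 : s ≤ 1 := by linarith [hB.sP0]
  have hγs : γ ≤ s := by
    have : s ^ 8 ≤ s := pow_le_of_le_one hs.le hs1 (by norm_num)
    linarith [hB.γ1]
  have hek := exp_le k1
  have hek0 := Real.exp_pos k
  have := law_prob a₀ hb
  obtain ⟨x, β⟩ := q
  have hN : Nice fun K => W K * cc K (y, true) (x, β) := hW.1.mul (nice_cc _ _)
  have hN0 : ∀ K, IsPort K → 0 ≤ W K * cc K (y, true) (x, β) :=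
    fun K hK => mul_nonneg (hW.2.1 K hK) (cc_nonneg _ _ _)
  set yh := E'.yh y b with hyh
  have hyim : |yh.im| = b := by simp [hyh, T.Env.yh, abs_of_pos hb]
  set F : (L.X → ℂ) → ℝ≥0∞ := fun w =>
    ENNReal.ofReal (W (KT L E E'.η w) * cc (KT L E E'.η w) (y, true) (x, β)) with hF
  have hFm : Measurable F := (hN.meas.comp measurable_KT).ennreal_ofReal
  set Wt : (L.X → ℂ) → ℝ≥0∞ := fun w => ENNReal.ofReal (W (KT L E E'.η (update w y yh))) with hWt
  have hT : ∀ v, T.Temp Wt v k := temp_KT_update hη0 hW k0 k1 y yh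
  have hTb : ∀ w v z, Wt (update w v z) ≤ ENNReal.ofReal (Real.exp k) * Wt w := fun w v z => by
    rcases eq_or_ne v y with rfl | hv
    · simp only [hWt, update_idem]
      exact le_mul_of_one_le_left' (ENNReal.one_le_ofReal.2 (Real.one_le_exp k0))
    · exact (hT y).2.2.2 w v z hv
  have hWW : ∀ w, Wt w ≤ ENNReal.ofReal 3 * ENNReal.ofReal (W (KT L E E'.η w)) := fun w => by
    rw [← ENNReal.ofReal_mul (by norm_num)]
    refine ENNReal.ofReal_le_ofReal ?_
    rw [KT_update]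
    exact (hW.2.2 _ _ _).trans (mul_le_mul_of_nonneg_right hek (hW.2.1 _ (port_KT hη0 w)))
  have e1 : ENNReal.ofReal (Ip L E E'.η (update μ y (Measure.dirac (pt (E'.η + b) a₀)))
      fun K => W K * cc K (y, true) (x, β)) = ∫⁻ w, F (update w y yh) ∂Measure.pi E'.μ := by
    have h1 : toT E E'.η (pt (E'.η + b) a₀) = yh := by
      rw [toT_pt hb.le, hyh, T.Env.yh, hr]; rfl
    rw [Ip_eq_lint hη0 _ hN hN0, map_upd hμ, Measure.map_dirac' measurable_toT, h1,
      lintegral_pi_update _ _ _ hFm]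
    simp only [lintegral_dirac]
  have e2 : ENNReal.ofReal (Ip L E E'.η (update μ y (lift (E'.η + γ) (law a₀ b)))
      fun K => W K * cc K (y, true) (x, β)) =
      ∫⁻ w, F w ∂Measure.pi (update E'.μ y (Md.tl E γ (law a₀ b))) := by
    rw [Ip_eq_lint hη0 _ hN hN0, map_upd hμ, map_lift hγ]
  have e3 : ∫⁻ w, Wt w ∂Measure.pi E'.μ ≤ ENNReal.ofReal 3 * ENNReal.ofReal (Ip L E E'.η μ W) := by
    have h1 := map_upd hμ (μ y)
    rw [update_eq_self] at h1
    rw [Ip_eq_lint hη0 _ hW.1 hW.2.1, h1,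
      T.lint_update_law E'.μ y ((μ y).map (toT E E'.η)) (hT y).1
        (fun w z => by simp only [hWt, update_idem]),
      ← lintegral_const_mul' _ _ ENNReal.ofReal_ne_top]
    exact lintegral_mono hWW
  have i2 := Ip_nonneg (E := E) hη0 (update μ y (lift (E'.η + γ) (law a₀ b))) hN0
  have i3 := Ip_nonneg (E := E) hη0 μ hW.2.1
  have hQs : 0 ≤ Q ^ 3110 * s := by positivity
  refine (ENNReal.ofReal_le_ofReal_iff
    (mul_nonneg hQs (add_nonneg i2 (mul_nonneg (Real.exp_pos _).le i3)))).1 ?_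
  rw [ENNReal.ofReal_mul (by positivity), ENNReal.ofReal_mul hQs, ENNReal.ofReal_add i2
    (by positivity), ENNReal.ofReal_mul (Real.exp_pos _).le, e1, e2]
  generalize ENNReal.ofReal (Ip L E E'.η μ W) = J3 at e3 ⊢
  have hcc : x ≠ y → ∀ w, ENNReal.ofReal (γ / b) * F (update w y yh) =
      ENNReal.ofReal (4 * γ) * (ENNReal.ofReal (st E'.η β (w x)) * Wt w *
        ENNReal.ofReal (‖E'.GG y b w y x‖ ^ 2)) := fun hx w => by
    have h1 := st_nonneg hη0 β (w x)
    have h2 := hW.2.1 _ (port_KT (E := E) hη0 (update w y yh))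
    simp only [hF, hWt, cc_KT hA hη0, update_self, update_of_ne hx, hyim]
    rw [← ENNReal.ofReal_mul (by positivity), ← ENNReal.ofReal_mul h1,
      ← ENNReal.ofReal_mul (by positivity), ← ENNReal.ofReal_mul (by positivity)]
    congr 1
    change _ * (_ * (4 * b * st E'.η β (w x) * ‖E'.GG y b w y x‖ ^ 2)) = _
    field_simp
  have fin : ∀ c : ℝ, 0 ≤ c → 3 * c ≤ Q ^ 3110 * s → x ∈ B →
      ENNReal.ofReal c * ∫⁻ w, Wt w ∂Measure.pi E'.μ ≤ ENNReal.ofReal (Q ^ 3110 * s) *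
        (∫⁻ w, F w ∂Measure.pi (update E'.μ y (Md.tl E γ (law a₀ b))) +
          ENNReal.ofReal (Real.exp (-(lam * D ^ 2))) * J3) := fun c hc h hx => by
    rw [hD0 hx]
    simp only [CharP.cast_eq_zero, ne_eq, OfNat.ofNat_ne_zero, not_false_eq_true, zero_pow,
      mul_zero, neg_zero, Real.exp_zero, ENNReal.ofReal_one, one_mul]
    refine (mul_le_mul_right e3 _).trans ?_
    rw [← mul_assoc, ← ENNReal.ofReal_mul hc]
    exact mul_le_mul' (ENNReal.ofReal_le_ofReal (by linarith)) le_add_self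
  have hQ3 : ∀ c : ℝ, c ≤ Q ^ 3 → c * s ≤ Q ^ 3110 * s := fun c hc =>
    mul_le_mul_of_nonneg_right (hc.trans (pow_le_pow_right₀ (by linarith) (by norm_num))) hs.le
  have hPQ : P ^ 2 ≤ Q ^ 2 := pow_le_pow_left₀ hP0.le hP 2
  rw [← lintegral_const_mul' _ _ ENNReal.ofReal_ne_top]
  by_cases hxy : x = y
  · refine le_trans ?_ (fin (4 * P * s) (by positivity) ?_ (hxy ▸ hB.yB))
    · rw [← lintegral_const_mul' _ _ ENNReal.ofReal_ne_top]
      refine lintegral_mono fun w => ?_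
      have hK := port_KT (E := E) hη0 (update w y yh)
      have h2 := hW.2.1 _ hK
      have h3 := (cc_le_dd _ (y, true) (x, β)).trans (hK.dd_le _)
      have h4 : γ / b ≤ P * s := by
        rw [div_le_iff₀ hb]; nlinarith [hB.Ph]
      simp only [hF, hWt]
      rw [← ENNReal.ofReal_mul (by positivity), ← ENNReal.ofReal_mul (by positivity)]
      refine ENNReal.ofReal_le_ofReal ?_
      calc _ ≤ P * s * (W (KT L E E'.η (update w y yh)) * 4) := by
            have := cc_nonneg (KT L E E'.η (update w y yh)) (y, true) (x, β)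
            gcongr
        _ = _ := by ring
    · refine le_trans (le_of_eq (by ring)) (hQ3 (12 * P) ?_)
      nlinarith
  simp only [hcc hxy]
  rw [lintegral_const_mul' _ _ ENNReal.ofReal_ne_top]
  by_cases hxB : x ∈ B
  · have hx : x ∈ B.erase y := mem_erase.2 ⟨hxy, hxB⟩
    have hw : 0 < win x := hη0.trans_le (hB.win0 x hx).1
    have h1 := T.Lc.site_bd E'.μ (hT y).1
      (f := fun w => ENNReal.ofReal (‖E'.GG y b w y x‖ ^ 2 * st E'.η β (w x)))
      ((((E'.measurable_GG y b y x).norm.pow_const 2).mul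
        ((measurable_st _ _).comp (measurable_pi_apply x))).ennreal_ofReal) x
      (fun w z => hTb w x z) fun w => by
        simp only [update_self]
        exact hB.site_GG hx w (measurable_st _ β) hη0.le fun v _ => by
          cases β <;> simp [st, hη0.le]
    refine le_trans ?_ (fin (4 * γ * (Real.exp k * (4 * P ^ 2 / win x * E'.η))) (by positivity)
      ?_ hxB)
    · rw [ENNReal.ofReal_mul (p := 4 * γ) (by positivity), ENNReal.ofReal_mul hek0.le, mul_assoc]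
      refine mul_le_mul_right (le_trans (le_of_eq (lintegral_congr fun w => ?_)) h1) _
      rw [ENNReal.ofReal_mul (by positivity)]; ring
    · have h2 : 4 * P ^ 2 / win x * E'.η ≤ 4 * P ^ 2 * s := by
        rw [div_mul_eq_mul_div, div_le_iff₀ hw, mul_assoc (4 * P ^ 2)]
        exact mul_le_mul_of_nonneg_left (hη' x hx) (by positivity)
      refine le_trans ?_ (hQ3 (144 * P ^ 2) (by nlinarith))
      calc _ ≤ 3 * (4 * 1 * (3 * (4 * P ^ 2 * s))) := by gcongr; linarith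
        _ = _ := by ring
  obtain ⟨h1, h2⟩ := hb_st E' hT hTb x (hη x) β B
  have h3 := hB.bp h1 hxB (hD hxB) h2 hP hk hκ hl
  rw [← T.lint_update_law E'.μ y _ (g := fun w => ENNReal.ofReal (st E'.η β (w x)) * Wt w *
    ENNReal.ofReal (‖E'.GG y b w y x‖ ^ 2)) (h1.1.mul
    ((E'.measurable_GG y b y x).norm.pow_const 2).ennreal_ofReal) fun w z => by
      simp only [hWt, T.Env.GG, update_idem, update_of_ne hxy]] at h3
  have h4 : ENNReal.ofReal (4 * γ) * T.Rq E'.G E'.η (update E'.μ y (Md.tl E γ (law a₀ b)))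
      (fun w => ENNReal.ofReal (st E'.η β (w x)) * Wt w) y x ≤ ENNReal.ofReal 3 *
        ∫⁻ w, F w ∂Measure.pi (update E'.μ y (Md.tl E γ (law a₀ b))) := by
    rw [T.Rq, ← lintegral_const_mul' _ _ ENNReal.ofReal_ne_top,
      ← lintegral_const_mul' _ _ ENNReal.ofReal_ne_top]
    refine lintegral_mono_ae ?_
    filter_upwards [ae_im E' E hγ (law a₀ b) y] with w hw
    have h5 := st_nonneg hη0 β (w x)
    have h6 := hW.2.1 _ (port_KT (E := E) hη0 w)
    refine (mul_le_mul_right (mul_le_mul_left (mul_le_mul_right (hWW w) _) _) _).trans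
      (le_of_eq ?_)
    simp only [hF, cc_KT hA hη0, hw]
    change _ = _ * ENNReal.ofReal (_ * (4 * γ * st E'.η β (w x) * _))
    rw [ENNReal.ofReal_mul h6, ENNReal.ofReal_mul (p := 4 * γ * _) (by positivity),
      ENNReal.ofReal_mul (p := 4 * γ) (by positivity)]
    ring
  have h5 : ENNReal.ofReal (4 * γ) * (ENNReal.ofReal 100 * ∫⁻ w, Wt w ∂Measure.pi E'.μ) ≤
      ENNReal.ofReal 1200 * J3 := by
    refine (mul_le_mul_right (mul_le_mul_right e3 _) _).trans ?_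
    rw [← mul_assoc, ← mul_assoc, ← ENNReal.ofReal_mul (by positivity),
      ← ENNReal.ofReal_mul (by positivity)]
    exact mul_le_mul_left (ENNReal.ofReal_le_ofReal (by linarith)) _
  have h6 : ENNReal.ofReal (Q ^ 3100 * s) * ENNReal.ofReal 1200 ≤
      ENNReal.ofReal (Q ^ 3110 * s) := by
    rw [← ENNReal.ofReal_mul (by positivity)]
    refine ENNReal.ofReal_le_ofReal ?_
    have h7 : 1200 ≤ Q ^ 10 :=
      le_trans (by nlinarith) (pow_le_pow_right₀ (by linarith) (show 2 ≤ 10 by norm_num))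
    rw [show 3110 = 3100 + 10 from rfl, pow_add, mul_right_comm]
    gcongr
  refine (mul_le_mul_right h3 _).trans (le_trans ?_ (mul_le_mul_left h6 _))
  rw [mul_left_comm, mul_assoc]
  refine mul_le_mul_right ?_ _
  rw [mul_add, mul_add, mul_left_comm (ENNReal.ofReal (4 * γ)),
    mul_left_comm (ENNReal.ofReal 1200)]
  exact add_le_add (h4.trans (mul_le_mul_left
    (ENNReal.ofReal_le_ofReal (by norm_num)) _)) (mul_le_mul_right h5 _)

/-- `Iw_eq`; for a label field with `y` active `law_update_of_act` and `x1`; otherwise the law at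
`y` is closed (`law_update_of_not_act`, `law_of_not_act`), so `cc K (y,true) q = 0` a.e. -/
theorem bpat {L : G.Lat} {h : ℝ} (hh : 0 < h) (lab : Lab L.X h) {G : SimpleGraph L.X} (hA : Adj L G)
    {E η : ℝ} (hη0 : 0 < η) (μ : L.X → Measure ℂ) [∀ x, IsProbabilityMeasure (μ x)]
    {B Z : Finset L.X} {y : L.X} {u : L.X → ℂ} {win : L.X → ℝ} {a₀ b γ P s lam : ℝ} {l : ℕ}
    {W : L.Mat → ℝ} {k Q : ℝ} (hW : Temp E η W k) (k0 : 0 ≤ k) (k1 : k ≤ 1) (hb : 0 < b)
    (hγ : 0 ≤ γ) (hs : 0 ≤ s) (hQ : 0 ≤ Q) (hP : P ≤ Q) (hk : Real.exp (k * B.card) ≤ Q)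
    (hl : Real.exp (lam * (l + 4004) ^ 2) ≤ Q) (hη' : ∀ x ∈ B.erase y, η ≤ s * win x)
    {D : L.X → ℕ} (hD : ∀ x ∉ B, ∀ z ∈ Z, x ∉ T.ball G z (3 * D x)) (hD0 : ∀ x ∈ B, D x = 0)
    (henv : ∀ lb, lab.act lb y → ∃ E' : T.Env L.X, E'.G = G ∧ E'.η = η ∧
      (∀ x, x ≠ y → E'.μ x = (lab.law η μ lb x).map (toT E η)) ∧ (E'.r y).re = a₀ - E ∧
      T.Block E' (Md.tl E γ (law a₀ b)) B Z y u win b γ P s lam l ∧
      Real.exp (∑ x ∈ B, E'.κ x) ≤ Q ∧ ∀ x, η * E'.Λ x ≤ 1) :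
    BPat lab E η μ W y a₀ b γ (Q ^ 3110 * s) (Q ^ 3110 * s)
      fun x => Real.exp (-(lam * D x ^ 2)) := by
  intro q
  have := law_prob a₀ hb
  have hN : Nice fun K => W K * cc K (y, true) q := hW.1.mul (nice_cc _ _)
  have hN0 : ∀ K, IsPort K → 0 ≤ W K * cc K (y, true) q :=
    fun K hK => mul_nonneg (hW.2.1 K hK) (cc_nonneg _ _ _)
  have hQs : 0 ≤ Q ^ 3110 * s := mul_nonneg (pow_nonneg hQ _) hs
  rw [Iw_eq hh hη0 lab _ hN, Iw_eq hh hη0 lab _ hN, Iw_eq hh hη0 lab _ hW.1, mul_sum, mul_sum,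
    mul_sum, ← sum_add_distrib]
  refine sum_le_sum fun lb _ => ?_
  have hp := lab.P_nonneg lb
  have := lab.isProb_law hh η μ lb
  rw [mul_left_comm, mul_left_comm (Q ^ 3110 * s), mul_left_comm _ (lab.P lb), ← mul_add]
  refine mul_le_mul_of_nonneg_left ?_ hp
  by_cases ha : lab.act lb y
  · obtain ⟨E', rfl, rfl, h1, h2, h3, h4, h5⟩ := henv lb ha
    rw [lab.law_update_of_act _ _ ha, lab.law_update_of_act _ _ ha, mul_assoc _ (Real.exp _),
      ← mul_add]
    exact x1 hA h3 h2 _ h1 hW k0 k1 hP hk h4 hl h5 hη' q (hD q.1) (hD0 q.1)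
  · rw [lab.law_update_of_not_act _ _ ha, lab.law_update_of_not_act _ _ ha]
    have h0 : Ip L E η (lab.law η μ lb) (fun K => W K * cc K (y, true) q) = 0 := by
      refine integral_eq_zero_of_ae ?_
      have h1 : ∀ᵐ w ∂Measure.pi (lab.law η μ lb), (w y).im = -η := by
        refine (Measure.tendsto_eval_ae_ae (i := y)).eventually (p := fun z : ℂ => z.im = -η) ?_
        rw [lab.law_of_not_act _ _ ha]
        exact ae_lift_im _ _
      filter_upwards [h1] with w hw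
      simp [cc, Kw, Lat.Km, N334.G.Lat.str, ga, hw]
    rw [h0, mul_zero, mul_zero, zero_add]
    exact mul_nonneg (mul_nonneg hQs (Real.exp_pos _).le) (Ip_nonneg hη0 _ hW.2.1)

end Crest.Agent.N334.Br
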